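import Vale.Agent.P128.Bonnet.Tip.Hole

/-!
# A part hanging at one point: the hanging part does not separate the plane
-/

namespace Vale.Agent.P128.Bonnet

open MeasureTheory Filter Metric Set Islands Connected
open scoped Topology ENNReal NNReal Real

/-- The bound of `DeleteGoal` with the constant `C`. -/
def HasDeleteBound (C : ℝ) : Prop :=
  ∀ (u : ℂ → ℝ) (K : Set ℂ) (x : ℂ), Reg u K →
      ∀ᵐ r : ℝ, 0 < r → ∀ (δ J : ℝ) (Z : Finset ℂ), δ ∈ Ioc (0 : ℝ) (1 / 4) → Z.Nonempty →
        (∀ z ∈ Z, z ∈ sphere x r) → (K ∩ sphere x r).Finite →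
        (∀ w ∈ K ∩ sphere x r, ∃ z ∈ Z, ‖w - z‖ ≤ δ * r) →
        (∀ a ∈ sphere x r \ K, ∀ b ∈ sphere x r \ K, (∀ z ∈ Z, δ * r ≤ ‖a - z‖) →
          (∀ z ∈ Z, δ * r ≤ ‖b - z‖) → |u a - u b| ≤ J) →
        (∀ a ∈ sphere x r \ K, ∀ b ∈ sphere x r \ K,
          ¬ Bornology.IsBounded (connectedComponentIn Kᶜ a) →
          ¬ Bornology.IsBounded (connectedComponentIn Kᶜ b) → b ∈ connectedComponentIn Kᶜ a) →
        Len K x r + En u x r ≤ C * Z.card * (δ * r + J ^ 2 / δ + r * tang u x r / δ)

lemma IsBalanced.eq_or_eq_neg {Ω : Finset ℂ} (h : IsBalanced Ω 2) {v : ℂ} (hv : v ∈ Ω) {w : ℂ}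
    (hw : w ∈ Ω) : w = v ∨ w = -v := by
  classical
  obtain ⟨a, b, hab, hΩ⟩ := Finset.card_eq_two.1 h.1
  have hs := h.2.2
  rw [hΩ, Finset.sum_pair hab, add_eq_zero_iff_eq_neg] at hs
  rw [hΩ] at hv hw
  simp only [Finset.mem_insert, Finset.mem_singleton] at hv hw
  rcases hv with rfl | rfl <;> rcases hw with rfl | rfl <;> simp_all

/-- Near a line the set avoids both sides of a slab, and meets circles near two points. -/
lemma near_line {K : Set ℂ} {q v a : ℂ} {σ δ : ℝ} {Ω : Finset ℂ} (hΩ : IsBalanced Ω 2)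
    (hv : v ∈ Ω) (hnear : IsStarNear K q σ δ Ω) (ha : a ∈ K) (hσ : ‖a - q‖ ≤ σ) :
    |dot (a - q) (Complex.I * v)| ≤ δ * σ := by
  obtain ⟨z, ⟨w, hw, t, -, rfl⟩, hz⟩ := hnear.1 a ha hσ
  have hnorm : ‖Complex.I * v‖ = 1 := by simp [hΩ.2.1 v hv]
  have h0 : dot (t • w) (Complex.I * v) = 0 := by
    rcases hΩ.eq_or_eq_neg hv hw with rfl | rfl <;> simp [dot] <;> ring
  calc |dot (a - q) (Complex.I * v)|
      = |dot (a - (q + t • w)) (Complex.I * v)| := by
        rw [← sub_sub, dot_sub_left (a - q) (t • w), h0, sub_zero]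
    _ ≤ ‖a - (q + t • w)‖ * ‖Complex.I * v‖ := by
        rw [dot_eq_inner]; exact abs_real_inner_le_norm _ _
    _ ≤ δ * σ := by rw [hnorm, mul_one]; exact hz

/-- On a circle a point near the axis is near one of the two ends. -/
lemma near_end {q v a : ℂ} {s h : ℝ} (hv : ‖v‖ = 1) (ha : ‖a - q‖ = s)
    (hd : |dot (a - q) (Complex.I * v)| ≤ h) :
    ‖a - (q + s • v)‖ ≤ 2 * h ∨ ‖a - (q + s • (-v))‖ ≤ 2 * h := by
  set e := starRingEnd ℂ v * (a - q) with he
  have hre : v.re * v.re + v.im * v.im = 1 := by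
    rw [← Complex.normSq_apply, Complex.normSq_eq_norm_sq, hv, one_pow]
  have hne : ‖e‖ = s := by simp [he, hv, ha]
  have him : e.im = dot (a - q) (Complex.I * v) := by simp [he, dot]; ring
  have hback : ∀ c : ℝ, a - (q + c • v) = v * (e - (c : ℂ)) := by
    intro c
    have h1 : v * starRingEnd ℂ v = 1 := by
      rw [Complex.mul_conj, Complex.normSq_apply, hre, Complex.ofReal_one]
    rw [he, mul_sub, ← mul_assoc, h1, one_mul, Complex.real_smul]
    ring
  have key : ∀ c : ℝ, ‖a - (q + c • v)‖ ≤ |e.re - c| + |e.im| := fun c => by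
    rw [hback, norm_mul, hv, one_mul]
    refine (Complex.norm_le_abs_re_add_abs_im _).trans ?_
    simp
  have hsum : s ≤ |e.re| + |e.im| := hne ▸ Complex.norm_le_abs_re_add_abs_im e
  have hle : |e.re| ≤ s := hne ▸ Complex.abs_re_le_norm e
  rw [← him] at hd
  rcases le_total 0 e.re with hp | hp
  · refine Or.inl ((key s).trans ?_)
    rw [abs_of_nonneg hp] at hsum hle
    rw [abs_of_nonpos (show e.re - s ≤ 0 by linarith)]
    linarith
  · refine Or.inr ?_
    rw [smul_neg, ← neg_smul]
    refine (key (-s)).trans ?_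
    rw [abs_of_nonpos hp] at hsum hle
    rw [abs_of_nonneg (show 0 ≤ e.re - -s by linarith)]
    linarith

lemma isPreconnected_sphere_sdiff {x p : ℂ} {R : ℝ} (hR : 0 < R) (hp : p ∈ sphere x R) :
    IsPreconnected (sphere x R \ {p}) := by
  rw [mem_sphere, dist_eq_norm] at hp
  set α := Complex.arg ((p - x) / 1) + Complex.arg 1
  have hα : circleMap x R α = p := eq_circleMap_arg hp norm_one
  have hp2 : circleMap x R (α + 2 * π) = p := by rw [periodic_circleMap x R α, hα]
  have hinj : ∀ θ ∈ Ioo α (α + 2 * π), circleMap x R θ ≠ p := fun θ hθ h => by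
    obtain ⟨n, hn⟩ := (circleMap_eq_circleMap_iff x hR.ne').1 (h.trans hα.symm)
    have h2 : θ = α + n * (2 * π) := by
      have := congrArg Complex.im hn
      simpa using this
    have h1 : (0 : ℝ) < n := pos_of_mul_pos_left (by linarith [hθ.1]) (by positivity : (0:ℝ) ≤ 2 * π)
    have h3 : (n : ℝ) < 1 := by
      by_contra hc
      push Not at hc
      have := mul_le_mul_of_nonneg_right hc (by positivity : (0:ℝ) ≤ 2 * π)
      linarith [hθ.2]
    have : (1 : ℤ) ≤ n := by exact_mod_cast h1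
    have : (1 : ℝ) ≤ n := by exact_mod_cast this
    linarith
  have e : sphere x R \ {p} = circleMap x R '' Ioo α (α + 2 * π) := by
    refine Subset.antisymm (fun y ⟨hy, hyp⟩ => ?_) ?_
    · rw [mem_sphere, dist_eq_norm] at hy
      obtain ⟨θ, hθ, he⟩ := (periodic_circleMap x R).exists_mem_Ico (by positivity)
        (Complex.arg ((y - x) / 1) + Complex.arg 1) α
      rw [eq_circleMap_arg hy norm_one] at he
      exact ⟨θ, ⟨hθ.1.lt_of_ne fun h => hyp (by rw [he, ← h, hα]; rfl), hθ.2⟩, he.symm⟩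
    · rintro y ⟨θ, hθ, rfl⟩
      exact ⟨circleMap_mem_sphere x hR.le θ, hinj θ hθ⟩
  rw [e]
  exact isPreconnected_Ioo.image _ (continuous_circleMap x R).continuousOn

lemma integrable_norm_sq_grad {u : ℂ → ℝ} {K : Set ℂ} (hu : Reg u K) (q : ℂ) (r : ℝ) :
    IntegrableOn (fun y => ‖grad u y‖ ^ 2) (ball q r) :=
  ((hu.memLp (r + ‖q‖)).norm.integrable_sq).mono_measure
    (Measure.restrict_mono (ball_subset_ball' (by simp)) le_rfl)

/-- A radius in `(r, 2 r]` with small energy on the circle, in any almost sure set. -/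
lemma exists_good_radius {u : ℂ → ℝ} {K : Set ℂ} (hu : Reg u K) {q : ℂ} {r τ : ℝ} (hr : 0 < r)
    (hτ : 0 < τ) (hen : En u q (2 * r) ≤ τ * (2 * r)) {P : ℝ → Prop}
    (hP : ∀ᵐ s : ℝ, s ∈ Ioc r (2 * r) → P s) :
    ∃ s ∈ Ioc r (2 * r), P s ∧
      IntervalIntegrable (fun θ => ‖grad u (circleMap q s θ)‖ ^ 2) volume (-π) π ∧
      Classify.circ (fun y => ‖grad u y‖ ^ 2) q s ≤ 3 * τ := by
  set f := fun y => ‖grad u y‖ ^ 2 with hf
  have hint := integrable_norm_sq_grad hu q (2 * r)
  have hae : ∀ᵐ s : ℝ, s ∈ Ioc r (2 * r) →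
      IntervalIntegrable (fun θ => f (circleMap q s θ)) volume (-π) π := by
    have h1 := Classify.ae_integrableOn_circle
      ((integrable_indicator_iff measurableSet_ball).2 hint) q
    rw [ae_restrict_iff' measurableSet_Ioi] at h1
    filter_upwards [h1, measure_eq_zero_iff_ae_notMem.1 (measure_singleton (μ := volume) (2 * r))]
      with s hs hs2 hsI
    have hs0 : 0 < s := hr.trans hsI.1
    refine (hs hs0).congr fun θ _ => indicator_of_mem ?_ _
    rw [mem_ball, dist_eq_norm]
    simp only [circleMap_sub_center, norm_circleMap_zero, abs_of_pos hs0]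
    exact lt_of_le_of_ne hsI.2 fun h => hs2 (mem_singleton_iff.2 h)
  by_contra hc
  push Not at hc
  have hci := Classify.intervalIntegrable_circ (by linarith : (0:ℝ) ≤ 2 * r) hint
  have hnn : ∀ s, 0 ≤ s → 0 ≤ Classify.circ f q s := fun s hs => mul_nonneg hs
    (intervalIntegral.integral_nonneg (by linarith [Real.pi_pos]) fun θ _ => by positivity)
  have hge : ∀ᵐ s ∂(volume.restrict (Ioc r (2 * r))), 3 * τ ≤ Classify.circ f q s := by
    rw [ae_restrict_iff' measurableSet_Ioc]
    filter_upwards [hP, hae] with s h1 h2 hs using (hc s hs (h1 hs) (h2 hs)).le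
  have hsub : IntervalIntegrable (Classify.circ f q) volume r (2 * r) :=
    hci.mono_set (by rw [uIcc_of_le (by linarith), uIcc_of_le (by linarith)]
                     exact Icc_subset_Icc hr.le le_rfl)
  have h1 : 3 * τ * r ≤ ∫ s in r..2 * r, Classify.circ f q s := by
    rw [intervalIntegral.integral_of_le (by linarith)]
    have h2 : ∫ _s in Ioc r (2 * r), 3 * τ = 3 * τ * r := by
      rw [setIntegral_const, Measure.real, Real.volume_Ioc, ENNReal.toReal_ofReal (by linarith),
        smul_eq_mul]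
      ring
    rw [← h2]
    exact integral_mono_ae (integrableOn_const (by simp [Real.volume_Ioc])) hsub.1 hge
  have h3 : ∫ s in r..2 * r, Classify.circ f q s ≤ ∫ s in (0:ℝ)..2 * r, Classify.circ f q s :=
    intervalIntegral.integral_mono_interval hr.le (by linarith) le_rfl
      (by rw [EventuallyLE, ae_restrict_iff' measurableSet_Ioc]
          exact Eventually.of_forall fun s hs => hnn s hs.1.le) hci
  rw [← Classify.setIntegral_ball_eq_circ (by linarith) hint] at h3
  have : En u q (2 * r) = ∫ y in ball q (2 * r), f y := rfl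
  nlinarith

lemma tang_le_circ {u v : ℂ → ℝ} {K : Set ℂ} {q : ℂ} {s : ℝ} (hs : 0 < s)
    (hfin : (K ∩ sphere q s).Finite) (hg : ∀ y, y ∉ K → grad v y = grad u y)
    (hint : IntervalIntegrable (fun θ => ‖grad u (circleMap q s θ)‖ ^ 2) volume (-π) π) :
    tang v q s ≤ Classify.circ (fun y => ‖grad u y‖ ^ 2) q s := by
  have hpi : -π ≤ π := by linarith [Real.pi_pos]
  rw [tang, circ, Classify.circ, intervalIntegral.integral_of_le hpi]
  refine mul_le_mul_of_nonneg_left ?_ hs.le
  have hnull : ∀ᵐ θ ∂(volume.restrict (Ioc (-π) π)), circleMap q s θ ∉ K := by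
    rw [ae_restrict_iff' measurableSet_Ioc]
    have hz : (Ioc (-π) π ∩ circleMap q s ⁻¹' K).Finite := by
      refine Set.Finite.of_finite_image (f := circleMap q s) (hfin.subset ?_) ?_
      · rintro y ⟨θ, hθ, rfl⟩
        exact ⟨hθ.2, circleMap_mem_sphere q hs.le θ⟩
      · intro a ha b hb hab
        obtain ⟨n, hn⟩ := (circleMap_eq_circleMap_iff q hs.ne').1 hab
        have h1 : a = b + n * (2 * π) := by simpa using congrArg Complex.im hn
        have h2 : ((n : ℝ)) = 0 := by
          have h3 : |(n : ℝ)| < 1 := by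
            rw [abs_lt]
            constructor <;> by_contra hc <;> push Not at hc <;>
              nlinarith [ha.1.1, ha.1.2, hb.1.1, hb.1.2, Real.pi_pos]
          have h4 : |n| < 1 := by exact_mod_cast h3
          have : n = 0 := by
            rw [abs_lt] at h4
            omega
          simp [this]
        simp [h1, h2]
    filter_upwards [measure_eq_zero_iff_ae_notMem.1 (hz.measure_zero volume)] with θ hθ hθI
      using fun h => hθ ⟨hθI, h⟩
  refine integral_mono_of_nonneg (Eventually.of_forall fun θ => by positivity)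
    ((intervalIntegrable_iff_integrableOn_Ioc_of_le hpi).1 hint) ?_
  filter_upwards [hnull] with θ hθ
  rw [hg _ hθ]
  have hdir : ‖Complex.I * dir q (circleMap q s θ)‖ ≤ 1 := by
    rw [norm_mul, Complex.norm_I, one_mul, dir, norm_smul, norm_inv, norm_norm]
    exact inv_mul_le_one
  have h := (show |dot (grad u (circleMap q s θ)) (Complex.I * dir q (circleMap q s θ))| ≤
      ‖grad u (circleMap q s θ)‖ * ‖Complex.I * dir q (circleMap q s θ)‖ by
    rw [dot_eq_inner]; exact abs_real_inner_le_norm _ _).trans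
      (mul_le_of_le_one_right (norm_nonneg _) hdir)
  calc _ = |dot (grad u (circleMap q s θ)) (Complex.I * dir q (circleMap q s θ))| ^ 2 := (sq_abs _).symm
    _ ≤ _ := pow_le_pow_left₀ (abs_nonneg _) h 2

/-- Where small arcs are cheaper a flat point has the same component on both sides, unless both
components are unbounded and different. -/
theorem not_two_sided {C : ℝ} {u : ℂ → ℝ} {K : Set ℂ} {q d v : ℂ} {r δ δ' τ : ℝ} {Ω : Finset ℂ}
    (hDel : HasDeleteBound C)
    (hRad : RadialGoal) (h : Conn u K) (hr : 0 < r) (hδ : 0 < δ) (hδδ' : 75 * δ ≤ δ')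
    (hδ'1 : δ' ≤ 1 / 4) (hC : 16 * |C| * δ' ≤ 1) (hτ : 0 < τ) (hτ' : 10000 * τ ≤ δ' ^ 2)
    (hΩ : IsBalanced Ω 2) (hv : v ∈ Ω) (hnear : IsStarNear K q (3 * r) δ Ω)
    (hlow : ∀ s ∈ Ioc r (2 * r), 19 / 10 * s ≤ Len K q s) (hen : En u q (2 * r) ≤ τ * (2 * r))
    (hD : Bornology.IsBounded (connectedComponentIn Kᶜ d))
    (hunb : ∀ a ∈ ball q (3 * r) \ K, ∀ b ∈ ball q (3 * r) \ K,
      ¬ Bornology.IsBounded (connectedComponentIn Kᶜ a) →
      ¬ Bornology.IsBounded (connectedComponentIn Kᶜ b) → b ∈ connectedComponentIn Kᶜ a)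
    (hplus : ∀ a ∈ ball q (3 * r), 12 * δ * r < dot (a - q) (Complex.I * v) →
      a ∈ connectedComponentIn Kᶜ d)
    (hminus : ∀ a ∈ ball q (3 * r), 12 * δ * r < dot (a - q) (Complex.I * (-v)) →
      a ∉ connectedComponentIn Kᶜ d) : False := by
  set D := connectedComponentIn Kᶜ d with hDdef
  have hv1 : ‖v‖ = 1 := hΩ.2.1 v hv
  have hnv1 : ‖-v‖ = 1 := by rw [norm_neg, hv1]
  have hfree : ∀ (w : ℂ), (w = v ∨ w = -v) → ∀ a ∈ ball q (3 * r),
      12 * δ * r < dot (a - q) (Complex.I * w) → a ∉ K := by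
    intro w hw a ha hd hK
    rw [mem_ball, dist_eq_norm] at ha
    have h1 := near_line hΩ hv hnear hK ha.le
    rcases hw with rfl | rfl
    · nlinarith [le_abs_self (dot (a - q) (Complex.I * w))]
    · rw [show dot (a - q) (Complex.I * -v) = -dot (a - q) (Complex.I * v) by simp [dot]; ring] at hd
      nlinarith [neg_abs_le (dot (a - q) (Complex.I * v))]
  have hall : ∀ᵐ s : ℝ, ∀ c : ℚ, 0 < s → _ := ae_all_iff.2 fun c : ℚ =>
    hDel (fun y => u y + D.indicator (fun _ => (c : ℝ)) y) K q (reg_shift h.reg hD c).1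
  have hfin := (hRad K q r (2 * r) h.reg.isClosed h.pieces h.reg.length_ne_top hr.le
    (by linarith)).1
  obtain ⟨s, hs, ⟨hdel, hsfin⟩, hint, hcirc⟩ := exists_good_radius (u := u) h.reg hr hτ hen
    (P := fun s => (∀ c : ℚ, _) ∧ (K ∩ sphere q s).Finite)
    (by
      filter_upwards [hall, hfin,
        measure_eq_zero_iff_ae_notMem.1 (measure_singleton (μ := volume) (2 * r))] with s h1 h2 h3 hs
      exact ⟨fun c => h1 c (hr.trans hs.1), h2 ⟨hs.1, lt_of_le_of_ne hs.2 h3⟩⟩)
  have hs0 : 0 < s := hr.trans hs.1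
  have hsball : sphere q s ⊆ ball q (3 * r) := fun y hy => by
    rw [mem_sphere] at hy; rw [mem_ball]; linarith [hs.2]
  set z := fun w : ℂ => q + s • w with hz
  set Z : Finset ℂ := {z v, z (-v)} with hZ
  have hZs : ∀ y ∈ Z, y ∈ sphere q s := by
    intro y hy
    rw [hZ, Finset.mem_insert, Finset.mem_singleton] at hy
    rcases hy with rfl | rfl <;>
      simp [z, hv1, abs_of_pos hs0]
  have hthin : ∀ y ∈ sphere q s, |dot (y - q) (Complex.I * v)| ≤ 12 * δ * r →
      ∃ w ∈ Z, ‖y - w‖ < δ' * s := by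
    intro y hy hd
    rw [mem_sphere, dist_eq_norm] at hy
    have hlt : 2 * (12 * δ * r) < δ' * s := by nlinarith [hs.1]
    rcases near_end hv1 hy hd with h1 | h1
    · exact ⟨z v, Finset.mem_insert_self _ _, h1.trans_lt hlt⟩
    · exact ⟨z (-v), Finset.mem_insert_of_mem (Finset.mem_singleton_self _), h1.trans_lt hlt⟩
  have hcover : ∀ w ∈ K ∩ sphere q s, ∃ y ∈ Z, ‖w - y‖ ≤ δ' * s := by
    rintro w ⟨hwK, hws⟩
    have hw3 : ‖w - q‖ ≤ 3 * r := by
      have := hsball hws
      rw [mem_ball, dist_eq_norm] at this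
      exact this.le
    obtain ⟨y, hy, hyd⟩ := hthin w hws ((near_line hΩ hv hnear hwK hw3).trans (by nlinarith))
    exact ⟨y, hy, hyd.le⟩
  set lam := Real.sqrt (s / τ) with hlam
  have hlam0 : 0 < lam := Real.sqrt_pos.2 (div_pos hs0 hτ)
  set J₀ := lam / 2 * (3 * τ) + π * s / lam with hJ₀
  have hJ0 : 0 < J₀ := by positivity
  have hside : ∀ w : ℂ, (w = v ∨ w = -v) → ∀ a ∈ sphere q s,
      12 * δ * r < dot (a - q) (Complex.I * w) →
      |u a - u (circleMap q s (π / 2 + Complex.arg w))| ≤ J₀ := by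
    intro w hw a ha hd
    have hw1 : ‖w‖ = 1 := by rcases hw with rfl | rfl <;> assumption
    rw [mem_sphere, dist_eq_norm] at ha
    set t := Complex.arg ((a - q) / w) with ht
    have hat : circleMap q s (t + Complex.arg w) = a := eq_circleMap_arg ha hw1
    have ht' : dot (a - q) (Complex.I * w) = s * Real.sin t := by rw [← hat, dot_circleMap hw1]
    have hsin : 0 < Real.sin t := by nlinarith
    have ht0 : 0 < t := by
      by_contra hc
      push Not at hc
      linarith [Real.sin_nonpos_of_nonpos_of_neg_pi_le hc (Complex.neg_pi_lt_arg _).le]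
    have htpi : t < π := lt_of_le_of_ne (Complex.arg_le_pi _) fun h => by
      rw [h, Real.sin_pi] at hsin; exact lt_irrefl _ hsin
    have hmin : ∀ θ ∈ Icc (min t (π / 2)) (max t (π / 2)), Real.sin t ≤ Real.sin θ := by
      intro θ hθ
      rcases le_total t (π / 2) with hle | hle
      · rw [min_eq_left hle, max_eq_right hle] at hθ
        exact Real.sin_le_sin_of_le_of_le_pi_div_two (by linarith) hθ.2 hθ.1
      · rw [min_eq_right hle, max_eq_left hle] at hθ
        rw [← Real.sin_pi_sub t, ← Real.sin_pi_sub θ]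
        exact Real.sin_le_sin_of_le_of_le_pi_div_two (by linarith) (by linarith [hθ.1])
          (by linarith [hθ.2])
    have hfree' : ∀ θ ∈ Icc (min t (π / 2) + Complex.arg w) (max t (π / 2) + Complex.arg w),
        circleMap q s θ ∉ K := by
      intro θ hθ
      refine hfree w hw _ (hsball (circleMap_mem_sphere q hs0.le θ)) ?_
      have := hmin (θ - Complex.arg w) ⟨by linarith [hθ.1], by linarith [hθ.2]⟩
      rw [show θ = θ - Complex.arg w + Complex.arg w by ring, dot_circleMap hw1]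
      refine hd.trans_le ?_
      rw [ht']
      exact mul_le_mul_of_nonneg_left this hs0.le
    have hlen : max t (π / 2) + Complex.arg w ≤ min t (π / 2) + Complex.arg w + 2 * π := by
      rcases le_total t (π / 2) with hle | hle
      · rw [min_eq_left hle, max_eq_right hle]; linarith [Real.pi_pos]
      · rw [min_eq_right hle, max_eq_left hle]; linarith [Real.pi_pos]
    have hosc := hole_osc_le h.reg hs0 hlam0 (by linarith [min_le_max (a := t) (b := π / 2)]) hlen
      hint hfree'
    have hJ : lam / 2 * Classify.circ (fun y => ‖grad u y‖ ^ 2) q s + π * s / lam ≤ J₀ := by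
      have := mul_le_mul_of_nonneg_left hcirc (show 0 ≤ lam / 2 by positivity)
      linarith
    rcases le_total t (π / 2) with hle | hle
    · rw [min_eq_left hle, max_eq_right hle, hat, abs_sub_comm] at hosc
      exact hosc.trans hJ
    · rw [min_eq_right hle, max_eq_left hle, hat] at hosc
      exact hosc.trans hJ
  set b₁ := circleMap q s (π / 2 + Complex.arg v) with hb₁
  set b₂ := circleMap q s (π / 2 + Complex.arg (-v)) with hb₂
  obtain ⟨c, hc1, hc2⟩ := exists_rat_btwn
    (show u b₂ - u b₁ - J₀ < u b₂ - u b₁ + J₀ by linarith)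
  set u' := fun y => u y + D.indicator (fun _ => (c : ℝ)) y with hu'
  have hval : ∀ a ∈ sphere q s \ K, (∀ y ∈ Z, δ' * s ≤ ‖a - y‖) → |u' a - u b₂| ≤ 2 * J₀ := by
    intro a ha hfar
    have hd : 12 * δ * r < |dot (a - q) (Complex.I * v)| := by
      by_contra hc
      push Not at hc
      obtain ⟨y, hy, hlt⟩ := hthin a ha.1 hc
      linarith [hfar y hy]
    rcases lt_abs.1 hd with hd | hd
    · have h1 := abs_le.1 (hside v (Or.inl rfl) a ha.1 hd)
      rw [abs_le, hu']
      simp only [indicator_of_mem (hplus a (hsball ha.1) hd)]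
      constructor <;> linarith [h1.1, h1.2]
    · rw [show -dot (a - q) (Complex.I * v) = dot (a - q) (Complex.I * -v) by
        simp [dot]; ring] at hd
      have h1 := hside (-v) (Or.inr rfl) a ha.1 hd
      rw [hu']
      simp only [indicator_of_notMem (hminus a (hsball ha.1) hd), add_zero]
      linarith [h1, hJ0]
  have key := hdel c δ' (4 * J₀) Z ⟨by linarith, hδ'1⟩ (Finset.insert_nonempty _ _) hZs hsfin
    hcover
    (fun a ha b hb hfa hfb => by
      have h1 := abs_le.1 (hval a ha hfa)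
      have h2 := abs_le.1 (hval b hb hfb)
      rw [abs_le]; constructor <;> linarith [h1.1, h1.2, h2.1, h2.2])
    (fun a ha b hb => hunb a ⟨hsball ha.1, ha.2⟩ b ⟨hsball hb.1, hb.2⟩)
  have htang := tang_le_circ (v := u') hs0 hsfin (reg_shift h.reg hD c).2 hint
  have hEn : 0 ≤ En u' q s := integral_nonneg fun y => by positivity
  have htang0 : 0 ≤ tang u' q s := by
    rw [tang, circ]
    exact mul_nonneg hs0.le (integral_nonneg fun θ => by positivity)
  have hL := hlow s hs
  set t := tang u' q s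
  have ht3 : t ≤ 3 * τ := htang.trans hcirc
  have hJ2 : (4 * J₀) ^ 2 ≤ 1600 * (τ * s) := by
    have e1 : lam * τ = Real.sqrt (τ * s) := by
      rw [hlam, show τ * s = s / τ * τ ^ 2 by field_simp, Real.sqrt_mul (by positivity),
        Real.sqrt_sq hτ.le]
    have e2 : s / lam = Real.sqrt (τ * s) := by
      rw [← e1, eq_comm, eq_div_iff hlam0.ne', mul_comm, ← mul_assoc, hlam,
        Real.mul_self_sqrt (by positivity)]
      field_simp
    have e : 4 * J₀ = (6 + 4 * π) * Real.sqrt (τ * s) := by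
      rw [hJ₀, show π * s / lam = π * (s / lam) by ring, e2,
        show lam / 2 * (3 * τ) = 3 / 2 * (lam * τ) by ring, e1]
      ring
    rw [e, mul_pow, Real.sq_sqrt (by positivity)]
    refine mul_le_mul_of_nonneg_right ?_ (by positivity)
    nlinarith [Real.pi_pos, Real.pi_le_four]
  have hδ'0 : 0 < δ' := by linarith
  have hcard : (Z.card : ℝ) ≤ 2 := by exact_mod_cast Finset.card_le_two
  have hX : δ' * s + (4 * J₀) ^ 2 / δ' + s * t / δ' ≤ 2 * (δ' * s) := by
    have h1 : (4 * J₀) ^ 2 + s * t ≤ δ' ^ 2 * s := by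
      nlinarith [mul_le_mul_of_nonneg_left ht3 hs0.le]
    have h2 : (4 * J₀) ^ 2 / δ' + s * t / δ' ≤ δ' * s := by
      rw [← add_div, div_le_iff₀ hδ'0]; linarith
    linarith
  have hX0 : 0 ≤ δ' * s + (4 * J₀) ^ 2 / δ' + s * t / δ' := by positivity
  have h1 : C * Z.card * (δ' * s + (4 * J₀) ^ 2 / δ' + s * t / δ') ≤
      |C| * 2 * (2 * (δ' * s)) :=
    mul_le_mul ((mul_le_mul_of_nonneg_right (le_abs_self C) (Nat.cast_nonneg _)).trans
      (mul_le_mul_of_nonneg_left hcard (abs_nonneg C))) hX hX0 (by positivity)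
  have h2 : |C| * 2 * (2 * (δ' * s)) ≤ s / 4 := by nlinarith
  linarith

/-- In a disk whose circle meets the singular set in one point every component of the complement
reaches the circle. -/
theorem component_reaches (hRad : RadialGoal) {C : ℝ} {u : ℂ → ℝ} {K : Set ℂ} {x p : ℂ}
    {R δ δ' τ σ₀ : ℝ} {T : Finset ℂ}
    (hDel : HasDeleteBound C)
    (h : Conn u K) (hR : 0 < R) (hp : K ∩ sphere x R = {p})
    (S : Scales u K (K ∩ closedBall x R) δ τ σ₀ T)
    (hδ : 0 < δ) (hδ1 : δ ≤ 1 / 300) (hδδ' : 75 * δ ≤ δ') (hδ'1 : δ' ≤ 1 / 4)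
    (hC : 16 * |C| * δ' ≤ 1) (hτ : 0 < τ) (hτ' : 10000 * τ ≤ δ' ^ 2) :
    ∀ d ∈ ball x R, d ∉ K → (connectedComponentIn Kᶜ d ∩ sphere x R).Nonempty := by
  classical
  have hKc := h.reg.isClosed
  have hball : ∀ a, a ∈ ball x R → a ∉ K → connectedComponentIn Kᶜ a ∩ sphere x R = ∅ →
      connectedComponentIn Kᶜ a ⊆ ball x R := by
    intro a ha haK he
    refine isPreconnected_connectedComponentIn.subset_left_of_subset_union isOpen_ball
      isClosed_closedBall.isOpen_compl (disjoint_compl_right.mono_left ball_subset_closedBall)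
      (fun y hy => ?_) ⟨a, mem_connectedComponentIn haK, ha⟩
    rcases lt_trichotomy (dist y x) R with hlt | heq | hgt
    · exact Or.inl hlt
    · exact absurd he (Nonempty.ne_empty ⟨y, hy, heq⟩)
    · exact Or.inr fun hy' => (not_le.2 hgt) hy'
  intro d hd hdK
  by_contra hne
  rw [not_nonempty_iff_eq_empty] at hne
  set D := connectedComponentIn Kᶜ d with hDdef
  have hDball : D ⊆ ball x R := hball d hd hdK hne
  have hDb : Bornology.IsBounded D := isBounded_ball.subset hDball
  have hDo : IsOpen D := hKc.isOpen_compl.connectedComponentIn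
  have hdD : d ∈ D := mem_connectedComponentIn hdK
  have hpp : p ∈ K ∩ sphere x R := hp.symm ▸ mem_singleton p
  -- a segment to the outside avoiding the exceptional points
  set T' := insert p T with hT'
  have hdT : ∀ t ∈ T', t ∈ K ∩ closedBall x R → d ≠ t := fun t _ ht h' => hdK (h' ▸ ht.1)
  obtain ⟨e, he1, he2⟩ : ∃ e : ℂ, ‖e‖ = 1 ∧ ∀ t ∈ T', e ≠ dir d t := by
    have hinf : (sphere (0 : ℂ) 1).Infinite := by
      intro hf
      have h2 : (circleMap (0 : ℂ) 1 '' Ioo 0 1).Finite := hf.subset (by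
        rintro _ ⟨θ, -, rfl⟩; exact circleMap_mem_sphere 0 zero_le_one θ)
      refine (Ioo_infinite (show (0:ℝ) < 1 by norm_num)) (h2.of_finite_image ?_)
      intro a ha b hb hab
      obtain ⟨n, hn⟩ := (circleMap_eq_circleMap_iff (0 : ℂ) one_ne_zero).1 hab
      have h1 : a = b + n * (2 * π) := by simpa using congrArg Complex.im hn
      have h3 : |(n : ℝ)| < 1 := by
        rw [abs_lt]
        constructor <;> by_contra hc <;> push Not at hc <;>
          nlinarith [ha.1, ha.2, hb.1, hb.2, Real.two_le_pi]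
      have : n = 0 := by
        have h4 : |n| < 1 := by exact_mod_cast h3
        rw [abs_lt] at h4
        omega
      simp [h1, this]
    obtain ⟨e, he, he'⟩ := hinf.exists_notMem_finset (T'.image (dir d))
    exact ⟨e, mem_sphere_zero_iff_norm.1 he, fun t ht h' =>
      he' (h' ▸ Finset.mem_image_of_mem _ ht)⟩
  set L := 2 * R + 1 with hL
  have hseg : Continuous fun t : ℝ => d + t • e := by fun_prop
  set Sg := (fun t : ℝ => d + t • e) '' Icc 0 L with hSg
  have hSgc : IsCompact Sg := isCompact_Icc.image hseg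
  have hSgT : ∀ t ∈ T', t ∈ K ∩ closedBall x R → t ∉ Sg := by
    rintro t ht htK ⟨l, hl, hlt⟩
    have hl0 : l ≠ 0 := fun h0 => hdT t ht htK (by rw [← hlt]; simp [h0])
    refine he2 t ht ?_
    rw [← hlt, dir]
    simp [he1, abs_of_pos (lt_of_le_of_ne hl.1 (Ne.symm hl0)), hl0]
  set T'' := T'.filter (fun t => t ∈ K ∩ closedBall x R) with hT''
  have hopen : Sg ⊆ (↑T'' : Set ℂ)ᶜ := fun y hy h' =>
    hSgT y (Finset.mem_filter.1 h').1 (Finset.mem_filter.1 h').2 hy
  obtain ⟨η, hη, hηsub⟩ := hSgc.exists_thickening_subset_open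
    T''.finite_toSet.isClosed.isOpen_compl hopen
  -- the margin
  set E := (K ∩ closedBall x R) \ ball p (η / 2) with hE
  have hEc : IsCompact E :=
    (((isCompact_closedBall x R).inter_left hKc)).diff isOpen_ball
  have hEb : E ⊆ ball x R := by
    rintro y ⟨⟨hy, hy2⟩, hy3⟩
    refine mem_ball.2 (lt_of_le_of_ne (mem_closedBall.1 hy2) fun h' => hy3 ?_)
    have h5 : y ∈ K ∩ sphere x R := ⟨hy, h'⟩
    rw [hp, mem_singleton_iff] at h5
    rw [h5]; exact mem_ball_self (by linarith)
  obtain ⟨m, hm, hmsub⟩ := hEc.exists_thickening_subset_open isOpen_ball hEb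
  obtain ⟨σ₁, hσ₁, hflat⟩ := S.flat (η / 2) (by linarith)
  obtain ⟨rd, hrd, hrdD⟩ := Metric.isOpen_iff.1 hDo d hdD
  set r := min (min (min (σ₁ / 3) (σ₀ / 3)) (min (m / 3) (η / 2))) (min rd (1 / 2)) with hr
  have hr0 : 0 < r := lt_min (lt_min (lt_min (by linarith) (by linarith [S.pos]))
    (lt_min (by linarith) (by linarith))) (lt_min hrd (by norm_num))
  have hr1 : r ≤ σ₁ / 3 :=
    (min_le_left _ _).trans ((min_le_left _ _).trans (min_le_left _ _))
  have hr2 : r ≤ σ₀ / 3 :=
    (min_le_left _ _).trans ((min_le_left _ _).trans (min_le_right _ _))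
  have hr3 : r ≤ m / 3 :=
    (min_le_left _ _).trans ((min_le_right _ _).trans (min_le_left _ _))
  have hr4 : r ≤ η / 2 :=
    (min_le_left _ _).trans ((min_le_right _ _).trans (min_le_right _ _))
  have hr5 : r ≤ rd := (min_le_right _ _).trans (min_le_left _ _)
  have hr6 : r ≤ 1 / 2 := (min_le_right _ _).trans (min_le_right _ _)
  -- a disk half filled by the hole
  set f := fun w => (volume (D ∩ ball w r)).toReal with hf
  have hvol : (volume (ball d r)).toReal = π * r ^ 2 := by
    rw [Complex.volume_ball, ENNReal.toReal_mul, ENNReal.toReal_pow, ENNReal.toReal_ofReal hr0.le]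
    simp; ring
  have hf0 : f (d + L • e) = 0 := by
    have he0 : D ∩ ball (d + L • e) r = ∅ := by
      refine eq_empty_iff_forall_notMem.2 fun y ⟨hy, hy2⟩ => ?_
      have h1 : dist y x < R := hDball hy
      have h2 : dist d x < R := hd
      rw [mem_ball] at hy2
      have h3 : dist (d + L • e) d = L := by
        rw [dist_eq_norm, add_sub_cancel_left, norm_smul, he1, mul_one,
          Real.norm_of_nonneg (by linarith)]
      linarith [dist_triangle (d + L • e) y d, dist_triangle y x d, dist_comm (d + L • e) y,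
        dist_comm x d]
    simp only [hf, he0]; simp
  have hfd : f d = π * r ^ 2 := by
    rw [hf, ← hvol]
    simp only
    rw [inter_eq_right.2 ((ball_subset_ball hr5).trans hrdD)]
  obtain ⟨l, hl, hlw⟩ := intermediate_value_Icc' (show (0:ℝ) ≤ L by linarith)
    (((continuous_volume_inter_ball D hr0).comp hseg).continuousOn)
    (show π * r ^ 2 / 2 ∈ Icc (f (d + L • e)) (f (d + (0:ℝ) • e)) by
      rw [hf0, zero_smul, add_zero, hfd]
      constructor <;> nlinarith [Real.pi_pos, sq_nonneg r])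
  set w := d + l • e with hw
  change (volume (D ∩ ball w r)).toReal = π * r ^ 2 / 2 at hlw
  have hwr : 0 < π * r ^ 2 := by positivity
  have hvolw : (volume (ball w r)).toReal = π * r ^ 2 := by
    rw [← hvol, Complex.volume_ball, Complex.volume_ball]
  obtain ⟨q, hqw, hqD, hqnD⟩ : ∃ q ∈ ball w r, q ∈ closure D ∧ q ∉ D := by
    by_contra hc
    push Not at hc
    have hne' : (ball w r ∩ D).Nonempty := by
      by_contra hc2
      rw [inter_comm, not_nonempty_iff_eq_empty] at hc2
      rw [hc2] at hlw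
      simp at hlw
      nlinarith
    have hsub := (convex_ball w r).isPreconnected.subset_left_of_subset_union hDo
      isClosed_closure.isOpen_compl (disjoint_left.2 fun y hy h' => h' (subset_closure hy))
      (fun y hy => by by_cases h' : y ∈ closure D
                      · exact Or.inl (hc y hy h')
                      · exact Or.inr h') hne'
    rw [inter_eq_right.2 hsub, hvolw] at hlw
    linarith
  have hqK : q ∈ K := by
    by_contra hq
    obtain ⟨y, hy1, hy2⟩ := mem_closure_iff.1 hqD _ hKc.isOpen_compl.connectedComponentIn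
      (mem_connectedComponentIn hq)
    apply hqnD
    rw [hDdef, connectedComponentIn_eq hy2, ← connectedComponentIn_eq hy1]
    exact mem_connectedComponentIn hq
  have hqJ : q ∈ K ∩ closedBall x R := ⟨hqK, closure_ball_subset_closedBall (closure_mono hDball hqD)⟩
  have hqT : ∀ t ∈ T', t ∈ K ∩ closedBall x R → η / 2 ≤ dist q t := by
    intro t ht htK
    by_contra hc
    push Not at hc
    refine hηsub (mem_thickening_iff.2 ⟨w, mem_image_of_mem _ hl, ?_⟩)
      (Finset.mem_coe.2 (Finset.mem_filter.2 ⟨ht, htK⟩))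
    rw [mem_ball] at hqw
    linarith [dist_triangle t q w, dist_comm q t]
  have hqp : η / 2 ≤ dist q p := hqT p (Finset.mem_insert_self _ _)
    ⟨hpp.1, sphere_subset_closedBall hpp.2⟩
  have hqE : q ∈ E := ⟨hqJ, fun h' => (not_lt.2 hqp) h'⟩
  have hq3 : ball q (3 * r) ⊆ ball x R := fun y hy => hmsub (mem_thickening_iff.2
    ⟨q, hqE, (mem_ball.1 hy).trans_le (by linarith)⟩)
  -- the star at q
  have hTJ : ∀ t ∈ T, η / 2 ≤ dist q t ∨ t ∉ K ∩ closedBall x R := fun t ht => by
    by_cases htK : t ∈ K ∩ closedBall x R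
    · exact Or.inl (hqT t (Finset.mem_insert_of_mem ht) htK)
    · exact Or.inr htK
  obtain ⟨Ω, hΩ, hnear⟩ := hflat q hqJ (fun t ht => (hTJ t ht).resolve_right
    (not_not_intro (S.mem t ht))) (3 * r) ⟨by linarith, by linarith⟩
  obtain ⟨v, hv⟩ : Ω.Nonempty := Finset.card_pos.1 (by rw [hΩ.1]; norm_num)
  have hv1 : ‖v‖ = 1 := hΩ.2.1 v hv
  have hvneg : -v ∈ Ω := by
    obtain ⟨v'', hv'', hne'⟩ := Ω.exists_mem_ne (by rw [hΩ.1]; norm_num) v
    rwa [(hΩ.eq_or_eq_neg hv hv'').resolve_left hne'] at hv''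
  set H := fun a : ℂ => {y | y ∈ ball q (3 * r) ∧ 12 * δ * r < dot (y - q) (Complex.I * a)} with hH
  have hHfree : ∀ a ∈ Ω, H a ⊆ Kᶜ := by
    rintro a ha y ⟨hy, hy2⟩ hyK
    rw [mem_ball, dist_eq_norm] at hy
    nlinarith [near_line hΩ ha hnear hyK hy.le, le_abs_self (dot (y - q) (Complex.I * a))]
  have hHD : ∀ a ∈ Ω, ∀ y ∈ H a, y ∈ D → H a ⊆ D := by
    intro a ha y hy hyD
    rw [hDdef, connectedComponentIn_eq hyD]
    exact (isPreconnected_side q _ _ _).subset_connectedComponentIn hy (hHfree a ha)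
  have hwq : ball w r ⊆ ball q (3 * r) := fun y hy => by
    rw [mem_ball] at hy hqw ⊢
    linarith [dist_triangle y w q, dist_comm q w]
  have hslab : ∀ Y : Set ℂ, Y ⊆ ball w r → (∀ y ∈ Y, y ∉ H v) → (∀ y ∈ Y, y ∉ H (-v)) →
      (volume Y).toReal < π * r ^ 2 / 2 := by
    intro Y hY h1 h2
    have hsub : Y ⊆ {a | a ∈ ball q (3 * r) ∧ |dot (a - q) (Complex.I * v)| ≤ 12 * δ * r} := by
      intro y hy
      refine ⟨hwq (hY hy), abs_le.2 ⟨?_, ?_⟩⟩ <;> by_contra hc <;> push Not at hc
      · exact h2 y hy ⟨hwq (hY hy), by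
          rw [show dot (y - q) (Complex.I * -v) = -dot (y - q) (Complex.I * v) by
            simp [dot]; ring]
          linarith⟩
      · exact h1 y hy ⟨hwq (hY hy), hc⟩
    have h3 := ENNReal.toReal_mono (ENNReal.mul_ne_top ENNReal.ofReal_ne_top ENNReal.ofReal_ne_top)
      ((measure_mono hsub).trans (volume_slab_le q v hv1 (3 * r) (12 * δ * r)))
    rw [ENNReal.toReal_mul, ENNReal.toReal_ofReal (by linarith),
      ENNReal.toReal_ofReal (by positivity)] at h3
    nlinarith [Real.two_le_pi, sq_nonneg r]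
  have hlow : ∀ s ∈ Ioc r (2 * r), 19 / 10 * s ≤ Len K q s := fun s hs =>
    S.lower q hqJ s ⟨hr0.trans hs.1, by linarith [hs.2]⟩
  have hen := S.energy q hqJ (2 * r) ⟨by linarith, by linarith⟩
  have hunb : ∀ a ∈ ball q (3 * r) \ K, ∀ b ∈ ball q (3 * r) \ K,
      ¬ Bornology.IsBounded (connectedComponentIn Kᶜ a) →
      ¬ Bornology.IsBounded (connectedComponentIn Kᶜ b) → b ∈ connectedComponentIn Kᶜ a := by
    intro a ha b hb hau hbu
    have reach : ∀ c, c ∈ ball x R → c ∉ K → ¬ Bornology.IsBounded (connectedComponentIn Kᶜ c) →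
        (connectedComponentIn Kᶜ c ∩ sphere x R).Nonempty := fun c hc hcK hcu => by
      by_contra h'
      rw [not_nonempty_iff_eq_empty] at h'
      exact hcu (isBounded_ball.subset (hball c hc hcK h'))
    obtain ⟨a', ha', ha''⟩ := reach a (hq3 ha.1) ha.2 hau
    obtain ⟨b', hb', hb''⟩ := reach b (hq3 hb.1) hb.2 hbu
    have hsub : sphere x R \ {p} ⊆ Kᶜ := fun y hy hyK => hy.2 (hp ▸ ⟨hyK, hy.1⟩)
    have hap : a' ≠ p := fun h' => connectedComponentIn_subset _ _ ha' (h' ▸ hpp.1)
    have hbp : b' ≠ p := fun h' => connectedComponentIn_subset _ _ hb' (h' ▸ hpp.1)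
    have h1 := (isPreconnected_sphere_sdiff hR hpp.2).subset_connectedComponentIn ⟨ha'', hap⟩ hsub
      ⟨hb'', hbp⟩
    rw [← connectedComponentIn_eq ha'] at h1
    rw [connectedComponentIn_eq h1, ← connectedComponentIn_eq hb']
    exact mem_connectedComponentIn hb.2
  by_cases h1 : ∃ y ∈ H v, y ∈ D
  · obtain ⟨y, hy, hyD⟩ := h1
    by_cases h2 : ∃ y ∈ H (-v), y ∈ D
    · obtain ⟨y', hy', hyD'⟩ := h2
      have := hslab (ball w r \ D) sdiff_subset (fun a ha h' => ha.2 (hHD v hv y hy hyD h'))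
        (fun a ha h' => ha.2 (hHD _ hvneg y' hy' hyD' h'))
      rw [← sdiff_inter_self_eq_sdiff, measure_sdiff inter_subset_right
        (hDo.inter isOpen_ball).measurableSet.nullMeasurableSet
        (ne_top_of_le_ne_top measure_ball_lt_top.ne (measure_mono inter_subset_right)),
        ENNReal.toReal_sub_of_le (measure_mono inter_subset_right) measure_ball_lt_top.ne,
        hvolw, hlw] at this
      linarith
    · push Not at h2
      exact not_two_sided hDel hRad h hr0 hδ hδδ' hδ'1 hC hτ hτ' hΩ hv hnear hlow hen hDb hunb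
        (fun a ha hda => hHD v hv y hy hyD ⟨ha, hda⟩) (fun a ha hda => h2 a ⟨ha, hda⟩)
  · push Not at h1
    by_cases h2 : ∃ y ∈ H (-v), y ∈ D
    · obtain ⟨y, hy, hyD⟩ := h2
      refine not_two_sided hDel hRad h hr0 hδ hδδ' hδ'1 hC hτ hτ' hΩ hvneg hnear hlow hen hDb hunb
        (fun a ha hda => hHD _ hvneg y hy hyD ⟨ha, hda⟩) (fun a ha hda => ?_)
      rw [neg_neg] at hda
      exact h1 a ⟨ha, hda⟩
    · push Not at h2
      have := hslab (D ∩ ball w r) inter_subset_right (fun a ha h' => h1 a h' ha.1)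
        (fun a ha h' => h2 a h' ha.1)
      rw [hlw] at this
      exact lt_irrefl _ this

end Vale.Agent.P128.Bonnet
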