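import Vale.Agent.P128.Bonnet.Tip.Scales
import Vale.Agent.P128.Connected.Continua
import Vale.Agent.P128.Islands.Tools

/-!
# A part hanging at one point: every point is a cut point, which is impossible

At every point the set has two sides joined to it. When it does not separate the plane the point
cuts it, and nested branches of almost least length give a contradiction.
-/

namespace Vale.Agent.P128.Bonnet

open MeasureTheory Filter Metric Set Islands Connected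
open scoped Topology ENNReal NNReal

lemma isPreconnected_inter_of_split {M A B : Set ℂ} {y : ℂ} (hM : IsPreconnected M)
    (hA : IsClosed A) (hB : IsClosed B) (hcov : M ⊆ A ∪ B) (hy : y ∈ M ∩ A)
    (hAB : M ∩ A ∩ B ⊆ {y}) : IsPreconnected (M ∩ A) := by
  rw [isPreconnected_closed_iff]
  intro c d hc hd hsub hcn hdn
  have main : ∀ c d : Set ℂ, IsClosed c → IsClosed d → M ∩ A ⊆ c ∪ d → y ∈ c →
      (M ∩ A ∩ d).Nonempty → (M ∩ A ∩ (c ∩ d)).Nonempty := by
    intro c d hc hd hsub hyc ⟨z, ⟨hzM, hzA⟩, hzd⟩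
    have hcov' : M ⊆ ((c ∩ A) ∪ B) ∪ (d ∩ A) := fun a ha => by
      rcases hcov ha with h | h
      · rcases hsub ⟨ha, h⟩ with h' | h'
        · exact Or.inl (Or.inl ⟨h', h⟩)
        · exact Or.inr ⟨h', h⟩
      · exact Or.inl (Or.inr h)
    obtain ⟨a, haM, ha1, had, haA⟩ := isPreconnected_closed_iff.1 hM _ _ ((hc.inter hA).union hB)
      (hd.inter hA) hcov' ⟨y, hy.1, Or.inl ⟨hyc, hy.2⟩⟩ ⟨z, hzM, hzd, hzA⟩
    rcases ha1 with ⟨hac, -⟩ | haB
    · exact ⟨a, ⟨haM, haA⟩, hac, had⟩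
    · have hay : a = y := hAB ⟨⟨haM, haA⟩, haB⟩
      exact ⟨a, ⟨haM, haA⟩, hay ▸ hyc, had⟩
  rcases hsub hy with hyc | hyd
  · exact main c d hc hd hsub hyc hdn
  · have := main d c hd hc (by rwa [union_comm]) hyd hcn
    rwa [inter_comm c d]

lemma component_meets_sphere_at {K : Set ℂ} (hK : IsClosed K) (hc : IsPreconnected K)
    (hunb : ¬ Bornology.IsBounded K) {y a : ℂ} {R : ℝ} (ha : a ∈ K ∩ closedBall y R) :
    (connectedComponentIn (K ∩ closedBall y R) a ∩ sphere y R).Nonempty := by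
  set φ := Homeomorph.addRight (-y) with hφ
  have hcb : φ '' (K ∩ closedBall y R) = φ '' K ∩ closedBall 0 R := by
    rw [image_inter φ.injective]
    congr 1
    ext z
    simp only [hφ, mem_image, mem_closedBall, dist_eq_norm, Homeomorph.coe_addRight, sub_zero]
    exact ⟨fun ⟨w, hw, e⟩ => by rw [← e, ← sub_eq_add_neg]; exact hw,
      fun hz => ⟨z + y, by simpa using hz, by simp⟩⟩
  have hunb' : ¬ Bornology.IsBounded (connectedComponentIn (φ '' K) (φ a)) := by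
    intro hb
    refine hunb ?_
    have h1 : φ '' K ⊆ connectedComponentIn (φ '' K) (φ a) :=
      (hc.image _ φ.continuous.continuousOn).subset_connectedComponentIn (mem_image_of_mem _ ha.1)
        subset_rfl
    obtain ⟨C, hC⟩ := isBounded_iff_forall_norm_le.1 (hb.subset h1)
    refine isBounded_iff_forall_norm_le.2 ⟨C + ‖y‖, fun z hz => ?_⟩
    have := hC _ (mem_image_of_mem _ hz)
    simp only [hφ, Homeomorph.coe_addRight] at this
    linarith [norm_le_insert' z y, show ‖z - y‖ = ‖z + -y‖ by rw [sub_eq_add_neg]]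
  obtain ⟨z, hz, hzs⟩ := component_meets_sphere (φ.isClosedMap K hK)
    (show φ a ∈ φ '' K ∩ closedBall 0 R from hcb ▸ mem_image_of_mem _ ha) hunb'
  rw [← hcb, ← φ.image_connectedComponentIn ha] at hz
  obtain ⟨w, hw, rfl⟩ := hz
  refine ⟨w, hw, ?_⟩
  simpa [hφ, dist_eq_norm, sub_eq_add_neg] using hzs

lemma length_ge_crossing {M : Set ℂ} (hM : IsPreconnected M) {y a b : ℂ} {s : ℝ} (ha : a ∈ M)
    (hb : b ∈ M) (hbs : s ≤ dist b y) :
    ENNReal.ofReal (s - dist a y) ≤ Measure.hausdorffMeasure 1 (M ∩ ball y s) := by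
  have hsub : Ico (dist a y) s ⊆ (fun z => dist z y) '' (M ∩ ball y s) := by
    intro t ht
    obtain ⟨z, hz, rfl⟩ := hM.intermediate_value ha hb
      (continuous_id.dist continuous_const).continuousOn ⟨ht.1, ht.2.le.trans hbs⟩
    exact ⟨z, ⟨hz, ht.2⟩, rfl⟩
  have h := (LipschitzWith.dist_left y).hausdorffMeasure_image_le zero_le_one (M ∩ ball y s)
  rw [ENNReal.coe_one, ENNReal.one_rpow, one_mul] at h
  refine le_trans ?_ ((measure_mono hsub).trans h)
  rw [hausdorffMeasure_real, Real.volume_Ico]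

/-- With density at most `31/10` the component of a point reaches every set accumulating there. -/
lemma cut_component_meets {u : ℂ → ℝ} {K : Set ℂ} (h : Conn u K) {y : ℂ} {s : ℝ} (hy : y ∈ K)
    (hs : 0 < s) (hlen : Len K y s ≤ 31 / 10 * s) {S : Set ℂ} (hS : S ⊆ K ∩ closedBall y s)
    (hacc : ∀ e > (0 : ℝ), ∃ a ∈ S, dist a y < e) :
    (connectedComponentIn (K ∩ closedBall y s) y ∩ S).Nonempty := by
  set X := K ∩ closedBall y s with hX
  have hyX : y ∈ X := ⟨hy, mem_closedBall_self hs.le⟩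
  have hXc : IsCompact X := (isCompact_closedBall _ _).inter_left h.reg.isClosed
  by_contra hne
  have hcl : ∀ a, IsClosed (connectedComponentIn X a) := isClosed_componentIn hXc.isClosed
  have step : ∀ e > (0 : ℝ), ∃ a ∈ S, dist a y < e ∧ ∃ e' > (0 : ℝ), e' ≤ e ∧
      ∀ b ∈ connectedComponentIn X a, e' ≤ dist b y := by
    intro e he
    obtain ⟨a, haS, had⟩ := hacc e he
    have hny : y ∉ connectedComponentIn X a := fun hy' => hne
      ⟨a, by rw [← connectedComponentIn_eq hy']; exact mem_connectedComponentIn (hS haS), haS⟩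
    obtain ⟨d, hd, hd'⟩ := Metric.isOpen_iff.1 (hcl a).isOpen_compl y hny
    refine ⟨a, haS, had, min d e, lt_min hd he, min_le_right _ _, fun b hb => ?_⟩
    by_contra hc
    push Not at hc
    exact hd' (mem_ball.2 (hc.trans_le (min_le_left _ _))) hb
  obtain ⟨a₁, ha₁, hd₁, e₁, he₁, he₁', hC₁⟩ := step (s / 16) (by linarith)
  obtain ⟨a₂, ha₂, hd₂, e₂, he₂, he₂', hC₂⟩ := step e₁ he₁
  obtain ⟨a₃, ha₃, hd₃, e₃, he₃, he₃', hC₃⟩ := step e₂ he₂
  set μ : Measure ℂ := Measure.hausdorffMeasure 1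
  set P := fun a => connectedComponentIn X a ∩ ball y s with hP
  have hlow : ∀ a ∈ X, dist a y ≤ s / 16 → ENNReal.ofReal (15 / 16 * s) ≤ μ (P a) := by
    intro a ha had
    obtain ⟨b, hb, hbs⟩ := component_meets_sphere_at h.reg.isClosed h.connected h.unbounded ha
    exact (ENNReal.ofReal_le_ofReal (by linarith)).trans (length_ge_crossing
      isPreconnected_connectedComponentIn (mem_connectedComponentIn ha) hb hbs.ge)
  have hdis : ∀ a b, a ∈ X → b ∉ connectedComponentIn X a → Disjoint (P a) (P b) := by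
    refine fun a b _ hb => disjoint_left.2 fun z hza hzb => hb ?_
    rw [connectedComponentIn_eq hza.1, ← connectedComponentIn_eq hzb.1]
    have : z ∈ X := connectedComponentIn_subset _ _ hzb.1
    by_cases hbX : b ∈ X
    · exact mem_connectedComponentIn hbX
    · exact absurd hzb.1 (by rw [connectedComponentIn_eq_empty hbX]; simp)
  have hm : ∀ a, MeasurableSet (P a) := fun a => (hcl a).measurableSet.inter measurableSet_ball
  have hns : ∀ a ∈ S, a ∉ connectedComponentIn X y := fun a ha h' => hne ⟨a, h', ha⟩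
  have h12 : a₂ ∉ connectedComponentIn X a₁ := fun h' => (not_le.2 hd₂) (hC₁ _ h')
  have h13 : a₃ ∉ connectedComponentIn X a₁ := fun h' => (not_le.2 (hd₃.trans_le he₂')) (hC₁ _ h')
  have h23 : a₃ ∉ connectedComponentIn X a₂ := fun h' => (not_le.2 hd₃) (hC₂ _ h')
  have hsum : μ (P y) + μ (P a₁) + μ (P a₂) + μ (P a₃) ≤ μ (K ∩ ball y s) := by
    rw [← measure_union (hdis _ _ hyX (hns _ ha₁)) (hm _), ← measure_union
      (disjoint_union_left.2 ⟨hdis _ _ hyX (hns _ ha₂), hdis _ _ (hS ha₁) h12⟩) (hm _),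
      ← measure_union (disjoint_union_left.2 ⟨disjoint_union_left.2
        ⟨hdis _ _ hyX (hns _ ha₃), hdis _ _ (hS ha₁) h13⟩, hdis _ _ (hS ha₂) h23⟩) (hm _)]
    refine measure_mono ?_
    simp only [union_subset_iff]
    refine ⟨⟨⟨?_, ?_⟩, ?_⟩, ?_⟩ <;>
      exact inter_subset_inter_left _ ((connectedComponentIn_subset _ _).trans inter_subset_left)
  have h4 := (add_le_add (add_le_add (add_le_add (hlow y hyX (by simp; linarith))
    (hlow a₁ (hS ha₁) hd₁.le)) (hlow a₂ (hS ha₂) (by linarith)))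
    (hlow a₃ (hS ha₃) (by linarith))).trans hsum
  have hfin : μ (K ∩ ball y s) ≠ ⊤ := ne_top_of_le_ne_top (h.reg.length_ne_top (s + ‖y‖))
    (measure_mono (inter_subset_inter_right _ (ball_subset_ball' (by simp))))
  have h5 := ENNReal.toReal_mono hfin h4
  have hp : 0 ≤ 15 / 16 * s := by linarith
  simp only [ENNReal.toReal_add, ENNReal.add_ne_top, ENNReal.ofReal_ne_top, ne_eq,
    not_false_eq_true, and_self, ENNReal.toReal_ofReal hp] at h5
  change _ ≤ Len K y s at h5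
  linarith

lemma IsBalanced.far {Ω : Finset ℂ} {k : ℕ} (h : IsBalanced Ω k) (hk : k = 2 ∨ k = 3) {a b : ℂ}
    (ha : a ∈ Ω) (hb : b ∈ Ω) (hne : a ≠ b) : 3 / 2 ≤ ‖a - b‖ := by
  classical
  have hb' : b ∈ Ω.erase a := Finset.mem_erase.2 ⟨hne.symm, hb⟩
  have hs := h.2.2
  rw [← Finset.add_sum_erase _ _ ha, ← Finset.add_sum_erase _ _ hb'] at hs
  have hcard : ((Ω.erase a).erase b).card = k - 2 := by
    rw [Finset.card_erase_of_mem hb', Finset.card_erase_of_mem ha, h.1]; omega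
  rcases hk with rfl | rfl
  · rw [Finset.card_eq_zero.1 hcard, Finset.sum_empty, add_zero, add_eq_zero_iff_eq_neg] at hs
    rw [hs, show -b - b = (-2 : ℝ) • b by simp; ring, norm_smul, h.2.1 b hb]
    norm_num
  · obtain ⟨c, hc⟩ := Finset.card_eq_one.1 (show ((Ω.erase a).erase b).card = 1 from hcard)
    have hcΩ : c ∈ Ω := Finset.mem_of_mem_erase (Finset.mem_of_mem_erase
      (show c ∈ (Ω.erase a).erase b by rw [hc]; exact Finset.mem_singleton_self c))
    rw [hc, Finset.sum_singleton, ← add_assoc, add_eq_zero_iff_eq_neg] at hs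
    have hp := parallelogram_law_with_norm ℝ a b
    rw [hs, norm_neg, h.2.1 a ha, h.2.1 b hb, h.2.1 c hcΩ] at hp
    nlinarith [norm_nonneg (a - b)]

lemma dir_close {y a w : ℂ} {t e m : ℝ} (hw : ‖w‖ = 1) (ht : 0 ≤ t) (hm : 0 < m)
    (hma : m ≤ ‖a - y‖) (he : ‖a - (y + t • w)‖ ≤ e) : ‖dir y a - w‖ ≤ 2 * e / m := by
  have he0 : 0 ≤ e := (norm_nonneg _).trans he
  set n := ‖a - y‖ with hn
  have hn0 : 0 < n := hm.trans_le hma
  have ht' : |n - t| ≤ e := by
    have e1 : ‖t • w‖ = t := by rw [norm_smul, hw, mul_one, Real.norm_of_nonneg ht]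
    have := abs_norm_sub_norm_le (a - y) (t • w)
    rw [e1, show a - y - t • w = a - (y + t • w) by abel] at this
    exact this.trans he
  have e2 : dir y a - w = n⁻¹ • ((a - (y + t • w)) + (t - n) • w) := by
    rw [dir, ← hn]
    match_scalars <;> field_simp
    ring
  rw [e2, norm_smul, norm_inv, Real.norm_of_nonneg hn0.le]
  have h1 : ‖(a - (y + t • w)) + (t - n) • w‖ ≤ 2 * e := by
    refine (norm_add_le _ _).trans ?_
    rw [norm_smul, hw, mul_one, Real.norm_eq_abs, abs_sub_comm]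
    linarith
  calc n⁻¹ * _ ≤ n⁻¹ * (2 * e) := mul_le_mul_of_nonneg_left h1 (by positivity)
    _ ≤ 2 * e / m := by rw [inv_mul_eq_div]; exact div_le_div_of_nonneg_left (by linarith) hm hma

/-- Two continua at a point which meet there only. -/
lemma two_sided {u : ℂ → ℝ} {K : Set ℂ} (h : Conn u K) {y : ℂ} {δ s : ℝ} {k : ℕ} (hy : y ∈ K)
    (hk : k = 2 ∨ k = 3) (hs : 0 < s) (hδ : δ ≤ 1 / 300)
    (hst : ∀ σ ∈ Ioc 0 s, Len K y σ ≤ 31 / 10 * σ ∧ ∃ Ω, IsBalanced Ω k ∧ IsStarNear K y σ δ Ω) :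
    ∃ A B : Set ℂ, A ⊆ K ∩ closedBall y s ∧ B ⊆ K ∩ closedBall y s ∧ IsCompact A ∧ IsCompact B ∧
      IsPreconnected A ∧ IsPreconnected B ∧ A ∩ B = {y} ∧ (A \ {y}).Nonempty ∧
      (B \ {y}).Nonempty := by
  set sc : ℕ → ℝ := fun n => s / 2 ^ n with hsc
  have hscpos : ∀ n, 0 < sc n := fun n => by positivity
  have hscs : ∀ n, sc (n + 1) = sc n / 2 := fun n => by simp [hsc, pow_succ]; ring
  have hscle : ∀ n, sc n ≤ s := fun n => div_le_self hs.le (one_le_pow₀ (by norm_num))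
  have hmono : ∀ {m n}, m ≤ n → sc n ≤ sc m := fun {m n} hmn =>
    div_le_div_of_nonneg_left hs.le (by positivity) (pow_le_pow_right₀ (by norm_num) hmn)
  choose Ω hΩ hnear using fun n => (hst (sc n) ⟨hscpos n, hscle n⟩).2
  set In : ℕ → ℂ → Prop := fun n a => sc (n + 1) ≤ ‖a - y‖ ∧ ‖a - y‖ ≤ sc n with hIn
  have ex_in : ∀ a, a ≠ y → ‖a - y‖ ≤ s → ∃ n, In n a := by
    intro a ha has
    have ht : 0 < ‖a - y‖ := norm_pos_iff.2 (sub_ne_zero.2 ha)
    have hex : ∃ n, sc (n + 1) ≤ ‖a - y‖ := by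
      obtain ⟨n, hn⟩ := exists_pow_lt_of_lt_one (div_pos ht hs) (show (1 / 2 : ℝ) < 1 by norm_num)
      refine ⟨n, (hmono (Nat.le_succ n)).trans ?_⟩
      rw [div_pow, one_pow, lt_div_iff₀ hs] at hn
      exact (le_of_eq (by simp [hsc]; ring)).trans hn.le
    refine ⟨Nat.find hex, Nat.find_spec hex, ?_⟩
    cases hn : Nat.find hex with
    | zero => simpa [hsc] using has
    | succ m => exact (not_le.1 (Nat.find_min hex (m := m) (by omega))).le
  have near : ∀ n, ∀ a ∈ K, In n a → ∃ w ∈ Ω n, ‖dir y a - w‖ ≤ 4 * δ := by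
    intro n a ha hn
    obtain ⟨z, ⟨w, hw, t, ht, rfl⟩, hz⟩ := (hnear n).1 a ha hn.2
    refine ⟨w, hw, (dir_close ((hΩ n).2.1 w hw) ht (hscpos (n + 1)) hn.1 hz).trans_eq ?_⟩
    rw [hscs, div_eq_iff (by have := hscpos n; positivity)]; ring
  have arm : ∀ n, ∀ w ∈ Ω n, ∃ a ∈ K, In (n + 1) a ∧ ‖dir y a - w‖ ≤ 8 * δ := by
    intro n w hw
    have hw1 := (hΩ n).2.1 w hw
    have hn := hscpos n
    have hnorm : ‖y + (3 / 8 * sc n) • w - y‖ = 3 / 8 * sc n := by
      rw [add_sub_cancel_left, norm_smul, hw1, mul_one, Real.norm_of_nonneg (by positivity)]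
    obtain ⟨a, ha, had⟩ := (hnear n).2.1 (y + (3 / 8 * sc n) • w)
      ⟨w, hw, _, by positivity, rfl⟩ (by rw [hnorm]; linarith)
    have h1 := abs_le.1 (abs_norm_sub_norm_le (a - y) (y + (3 / 8 * sc n) • w - y))
    rw [hnorm, show a - y - (y + (3 / 8 * sc n) • w - y) = a - (y + (3 / 8 * sc n) • w) by abel]
      at h1
    have hd := mul_le_mul_of_nonneg_right hδ hn.le
    refine ⟨a, ha, ⟨?_, ?_⟩, (dir_close hw1 (by positivity) (m := sc n / 4) (by positivity)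
      (by linarith) had).trans_eq ?_⟩
    · rw [hscs, hscs]; linarith
    · rw [hscs]; linarith
    · rw [div_eq_iff (by positivity)]; ring
  have step : ∀ n, ∀ w ∈ Ω n, ∃ w' ∈ Ω (n + 1), ‖w - w'‖ ≤ 12 * δ := by
    intro n w hw
    obtain ⟨a, ha, hna, had⟩ := arm n w hw
    obtain ⟨w', hw', had'⟩ := near _ a ha hna
    refine ⟨w', hw', ?_⟩
    linarith [norm_sub_le_norm_sub_add_norm_sub w (dir y a) w', norm_sub_rev w (dir y a)]
  choose! nx hnx hnxd using step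
  obtain ⟨w₀, hw₀⟩ : (Ω 0).Nonempty := Finset.card_pos.1 (by rw [(hΩ 0).1]; omega)
  set om : ℕ → ℂ := fun n => Nat.rec w₀ (fun m w => nx m w) n with hom
  have hmem : ∀ n, om n ∈ Ω n := fun n => by
    induction n with
    | zero => exact hw₀
    | succ m ih => exact hnx m _ ih
  have homd : ∀ n, ‖om n - om (n + 1)‖ ≤ 12 * δ := fun n => hnxd n _ (hmem n)
  -- the side of a point
  have key : ∀ n m a a', a ∈ K → a' ∈ K → In n a → In m a' → ‖a - a'‖ ≤ ‖a - y‖ / 50 →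
      ‖dir y a - om n‖ ≤ 1 / 2 → ‖dir y a' - om m‖ ≤ 1 / 2 := by
    intro n m a a' ha ha' hn hm hclose hside
    have hna : 0 < ‖a - y‖ := (hscpos _).trans_le hn.1
    have hdd : ‖dir y a - dir y a'‖ ≤ 1 / 25 := by
      have hna' : 0 < ‖a' - y‖ := (hscpos _).trans_le hm.1
      have e1 : y + ‖a' - y‖ • dir y a' = a' := by
        rw [dir, smul_smul, mul_inv_cancel₀ hna'.ne', one_smul, add_sub_cancel]
      refine (dir_close (y := y) (a := a) (w := dir y a') (e := ‖a - y‖ / 50) ?_ (norm_nonneg (a' - y)) hna le_rfl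
        (by rw [e1]; exact hclose)).trans_eq ?_
      · rw [dir, norm_smul, norm_inv, norm_norm, inv_mul_cancel₀ hna'.ne']
      · field_simp
        norm_num
    have hr := abs_le.1 ((abs_norm_sub_norm_le (a - y) (a' - y)).trans
      ((le_of_eq (by rw [show a - y - (a' - y) = a - a' by abel])).trans ‹_›))
    have hnm : ‖om n - om m‖ ≤ 12 * δ := by
      have h1 : m ≤ n + 1 := by
        by_contra hc
        have := hmono (show n + 2 ≤ m by omega)
        linarith [hm.2, hn.1, hscs (n + 1)]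
      have h2 : n ≤ m + 1 := by
        by_contra hc
        have := hmono (show m + 2 ≤ n by omega)
        linarith [hn.2, hm.1, hscs (m + 1)]
      rcases (show m = n ∨ m = n + 1 ∨ n = m + 1 by omega) with rfl | rfl | rfl
      · simp only [sub_self, norm_zero]
        linarith [(norm_nonneg _).trans (homd m)]
      · exact homd n
      · rw [norm_sub_rev]; exact homd m
    obtain ⟨w, hw, hwd⟩ := near n a ha hn
    have hweq : w = om n := by
      by_contra hne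
      linarith [(hΩ n).far hk hw (hmem n) hne, norm_sub_le_norm_sub_add_norm_sub w (dir y a) (om n),
        norm_sub_rev w (dir y a)]
    subst hweq
    linarith [norm_sub_le_norm_sub_add_norm_sub (dir y a') (dir y a) (om m),
      norm_sub_le_norm_sub_add_norm_sub (dir y a) (om n) (om m), norm_sub_rev (dir y a') (dir y a)]
  set X := K ∩ closedBall y s with hX
  have hyX : y ∈ X := ⟨hy, mem_closedBall_self hs.le⟩
  set SA := {a | a ∈ X ∧ ∃ n, In n a ∧ ‖dir y a - om n‖ ≤ 1 / 2} with hSA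
  set SB := {a | a ∈ X ∧ a ≠ y ∧ a ∉ SA} with hSB
  have hAy : y ∉ SA := fun ⟨_, n, hn, _⟩ => by
    have := hn.1; rw [sub_self, norm_zero] at this; linarith [hscpos (n + 1)]
  have stable : ∀ a ∈ X, a ≠ y → ∀ a' ∈ X, a' ≠ y → ‖a - a'‖ ≤ ‖a - y‖ / 100 →
      (a ∈ SA ↔ a' ∈ SA) := by
    intro a ha hay a' ha' hay' hc
    have h1 := abs_le.1 ((abs_norm_sub_norm_le (a - y) (a' - y)).trans
      ((le_of_eq (by rw [show a - y - (a' - y) = a - a' by abel])).trans ‹_›))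
    constructor
    · rintro ⟨-, n, hn, hd⟩
      obtain ⟨m, hm⟩ := ex_in a' hay' (mem_closedBall_iff_norm.1 ha'.2)
      exact ⟨ha', m, hm, key n m a a' ha.1 ha'.1 hn hm
        (by linarith [norm_nonneg (a - y)]) hd⟩
    · rintro ⟨-, m, hm, hd⟩
      obtain ⟨n, hn⟩ := ex_in a hay (mem_closedBall_iff_norm.1 ha.2)
      exact ⟨ha, n, hn, key m n a' a ha'.1 ha.1 hm hn
        (by rw [norm_sub_rev]; linarith [norm_nonneg (a - y)]) hd⟩
  have hXc : IsCompact X := (isCompact_closedBall _ _).inter_left h.reg.isClosed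
  have closed : ∀ S : Set ℂ, S ⊆ X → y ∉ S →
      (∀ a ∈ X, a ≠ y → ∀ a' ∈ S, ‖a - a'‖ ≤ ‖a - y‖ / 100 → a ∈ S) → IsClosed (insert y S) := by
    intro S hSX hyS hst'
    refine isClosed_of_closure_subset fun a ha => ?_
    rw [insert_eq, closure_union, closure_singleton] at ha
    rcases ha with rfl | ha
    · exact mem_insert a _
    by_cases hay : a = y
    · subst hay; exact mem_insert a _
    obtain ⟨a', ha', had⟩ := Metric.mem_closure_iff.1 ha (‖a - y‖ / 100)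
      (by have := norm_pos_iff.2 (sub_ne_zero.2 hay); positivity)
    rw [dist_eq_norm] at had
    exact Or.inr (hst' a (hXc.isClosed.closure_subset_iff.2 hSX ha) hay a' ha' had.le)
  have hAc := closed SA (fun a ha => ha.1) hAy fun a ha hay a' ha' hc =>
    (stable a ha hay a' ha'.1 (fun h' => hAy (h' ▸ ha')) hc).2 ha'
  have hBc := closed SB (fun a ha => ha.1) (fun h' => h'.2.1 rfl) fun a ha hay a' ha' hc =>
    ⟨ha, hay, fun h' => ha'.2.2 ((stable a ha hay a' ha'.1 ha'.2.1 hc).1 h')⟩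
  have small : ∀ e > (0 : ℝ), ∃ n, sc n < e := by
    intro e he
    obtain ⟨n, hn⟩ := exists_pow_lt_of_lt_one (div_pos he hs) (show (1 / 2 : ℝ) < 1 by norm_num)
    refine ⟨n, ?_⟩
    rw [div_pow, one_pow, lt_div_iff₀ hs] at hn
    exact lt_of_eq_of_lt (by simp [hsc]; ring) hn
  have inX : ∀ n a, a ∈ K → In n a → a ∈ X := fun n a ha hn =>
    ⟨ha, mem_closedBall_iff_norm.2 (hn.2.trans (hscle n))⟩
  have accA : ∀ e > (0 : ℝ), ∃ a ∈ SA, dist a y < e := by
    intro e he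
    obtain ⟨n, hn⟩ := small e he
    obtain ⟨a, ha, hna, had⟩ := arm n _ (hmem n)
    refine ⟨a, ⟨inX _ a ha hna, n + 1, hna, ?_⟩, ?_⟩
    · linarith [norm_sub_le_norm_sub_add_norm_sub (dir y a) (om n) (om (n + 1)), homd n]
    · rw [dist_eq_norm]
      linarith [hna.2, hscs n, hscpos n]
  have accB : ∀ e > (0 : ℝ), ∃ a ∈ SB, dist a y < e := by
    intro e he
    obtain ⟨n, hn⟩ := small e he
    obtain ⟨w, hw, hwne⟩ := (Ω n).exists_mem_ne (by rw [(hΩ n).1]; omega) (om n)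
    obtain ⟨a, ha, hna, had⟩ := arm n w hw
    have hay : a ≠ y := fun h' => by
      have := hna.1; rw [h', sub_self, norm_zero] at this; linarith [hscpos (n + 2)]
    refine ⟨a, ⟨inX _ a ha hna, hay, fun ⟨_, m, hm, hmd⟩ => ?_⟩, ?_⟩
    · have h1 := key m (n + 1) a a ha ha hm hna (by simp; positivity) hmd
      linarith [(hΩ n).far hk hw (hmem n) hwne, homd n, norm_sub_rev (om n) (om (n + 1)),
        norm_sub_le_norm_sub_add_norm_sub w (dir y a) (om n),
        norm_sub_le_norm_sub_add_norm_sub (dir y a) (om (n + 1)) (om n), norm_sub_rev w (dir y a)]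
    · rw [dist_eq_norm]
      linarith [hna.2, hscs n, hscpos n]
  have hl := (hst s ⟨hs, le_rfl⟩).1
  obtain ⟨a, haM, haA⟩ := cut_component_meets h hy hs hl (fun a ha => ha.1) accA
  obtain ⟨b, hbM, hbB⟩ := cut_component_meets h hy hs hl (fun a ha => ha.1) accB
  set M := connectedComponentIn X y with hM
  have hMc : IsCompact M := hXc.of_isClosed_subset (isClosed_componentIn hXc.isClosed y)
    (connectedComponentIn_subset _ _)
  have hyM : y ∈ M := mem_connectedComponentIn hyX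
  have hcov : M ⊆ insert y SA ∪ insert y SB := fun c hc => by
    by_cases hcy : c = y
    · exact Or.inl (Or.inl hcy)
    by_cases hcA : c ∈ SA
    · exact Or.inl (Or.inr hcA)
    · exact Or.inr (Or.inr ⟨connectedComponentIn_subset _ _ hc, hcy, hcA⟩)
  have hint : insert y SA ∩ insert y SB ⊆ {y} := by
    rintro c ⟨rfl | hcA, hcB⟩
    · rfl
    · rcases hcB with rfl | hcB
      · rfl
      · exact absurd hcA hcB.2.2
  refine ⟨M ∩ insert y SA, M ∩ insert y SB, inter_subset_left.trans (connectedComponentIn_subset _ _),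
    inter_subset_left.trans (connectedComponentIn_subset _ _), hMc.inter_right hAc,
    hMc.inter_right hBc,
    isPreconnected_inter_of_split isPreconnected_connectedComponentIn hAc hBc hcov
      ⟨hyM, mem_insert _ _⟩ (fun c hc => hint ⟨hc.1.2, hc.2⟩),
    isPreconnected_inter_of_split isPreconnected_connectedComponentIn hBc hAc
      (by rwa [union_comm]) ⟨hyM, mem_insert _ _⟩ (fun c hc => hint ⟨hc.2, hc.1.2⟩),
    Subset.antisymm (fun c hc => hint ⟨hc.1.2, hc.2.2⟩)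
      (singleton_subset_iff.2 ⟨⟨hyM, mem_insert _ _⟩, hyM, mem_insert _ _⟩),
    ⟨a, ⟨haM, Or.inr haA⟩, fun h' => hAy (h' ▸ haA)⟩, ⟨b, ⟨hbM, Or.inr hbB⟩, hbB.2.1⟩⟩

/-- Points of a Lipschitz image have small connected compact neighbourhoods. -/
lemma exists_connected_nhd {J : Set ℂ} {γ : ℝ → ℂ} {C : ℝ≥0} (hγ : LipschitzWith C γ)
    (hJ : γ '' Icc 0 1 = J) {w : ℂ} (hw : w ∈ J) {e : ℝ} (he : 0 < e) :
    ∃ N, N ⊆ J ∩ closedBall w e ∧ IsCompact N ∧ IsPreconnected N ∧ w ∈ N ∧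
      ∃ U, IsOpen U ∧ w ∈ U ∧ U ∩ J ⊆ N := by
  set P := Icc (0:ℝ) 1 ∩ γ ⁻¹' {w} with hP
  have hPc : IsCompact P := isCompact_Icc.inter_right (isClosed_singleton.preimage hγ.continuous)
  set η := e / ((C : ℝ) + 1) with hη
  have hη0 : 0 < η := div_pos he (by positivity)
  have hCη : (C : ℝ) * η ≤ e := by
    have h1 : ((C : ℝ) + 1) * η = e := by rw [hη]; field_simp
    linarith
  set I := Icc (0:ℝ) 1 ∩ cthickening η P with hI
  have hIc : IsCompact I := isCompact_Icc.inter_right isClosed_cthickening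
  have hIP : ∀ t ∈ I, ∃ t₀ ∈ P, |t - t₀| ≤ η := by
    intro t ht
    have h2 := ht.2
    rw [hPc.cthickening_eq_biUnion_closedBall hη0.le] at h2
    obtain ⟨t₀, ht₀, h3⟩ := mem_iUnion₂.1 h2
    exact ⟨t₀, ht₀, by rwa [mem_closedBall, Real.dist_eq] at h3⟩
  have hwP : ∃ t, t ∈ P := by
    rw [← hJ] at hw
    obtain ⟨t, ht, rfl⟩ := hw
    exact ⟨t, ht, rfl⟩
  obtain ⟨t', ht'⟩ := hwP
  refine ⟨γ '' I, ?_, hIc.image hγ.continuous, ?_,
    ⟨t', ⟨ht'.1, self_subset_cthickening _ ht'⟩, ht'.2⟩, ?_⟩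
  · rintro _ ⟨t, ht, rfl⟩
    obtain ⟨t₀, ht₀, htd⟩ := hIP t ht
    refine ⟨hJ ▸ mem_image_of_mem _ ht.1, ?_⟩
    have := hγ.dist_le_mul t t₀
    rw [Real.dist_eq, show γ t₀ = w from ht₀.2] at this
    exact mem_closedBall.2 (this.trans ((mul_le_mul_of_nonneg_left htd C.coe_nonneg).trans hCη))
  · refine isPreconnected_of_forall w fun c hc => ?_
    obtain ⟨t, ht, rfl⟩ := hc
    obtain ⟨t₀, ht₀, htd⟩ := hIP t ht
    refine ⟨γ '' uIcc t₀ t, image_mono fun l hl => ?_, ⟨t₀, left_mem_uIcc, ht₀.2⟩,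
      ⟨t, right_mem_uIcc, rfl⟩, isPreconnected_uIcc.image _ hγ.continuous.continuousOn⟩
    refine ⟨uIcc_subset_Icc ht₀.1 ht.1 hl, mem_cthickening_of_dist_le l t₀ η P ht₀ ?_⟩
    rw [Real.dist_eq]
    exact (abs_sub_left_of_mem_uIcc hl).trans htd
  · refine ⟨(γ '' (Icc 0 1 \ thickening η P))ᶜ,
      ((isCompact_Icc.diff isOpen_thickening).image hγ.continuous).isClosed.isOpen_compl,
      fun ⟨t, ht, htw⟩ => ht.2 (self_subset_thickening hη0 _ ⟨ht.1, htw⟩), ?_⟩
    rintro c ⟨hc, hcJ⟩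
    rw [← hJ] at hcJ
    obtain ⟨t, ht, rfl⟩ := hcJ
    refine ⟨t, ⟨ht, thickening_subset_cthickening _ _ ?_⟩, rfl⟩
    by_contra hn
    exact hc ⟨t, ⟨ht, hn⟩, rfl⟩

/-- Where two continua meet in one point only, in a hereditarily unicoherent locally connected
continuum, that point cuts. -/
lemma not_preconnected_compl_point {J : Set ℂ} {γ : ℝ → ℂ} {C : ℝ≥0} (hγ : LipschitzWith C γ)
    (hJ : γ '' Icc 0 1 = J)
    (huni : ∀ A B : Set ℂ, A ⊆ J → B ⊆ J → IsCompact A → IsCompact B → IsPreconnected A →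
      IsPreconnected B → IsPreconnected (A ∩ B))
    {y : ℂ} {A B : Set ℂ} (hAJ : A ⊆ J) (hBJ : B ⊆ J) (hAc : IsCompact A) (hBc : IsCompact B)
    (hAp : IsPreconnected A) (hBp : IsPreconnected B) (hAB : A ∩ B = {y})
    (hA : (A \ {y}).Nonempty) (hB : (B \ {y}).Nonempty) : ¬ IsPreconnected (J \ {y}) := by
  intro hp
  obtain ⟨a, haA, hay⟩ := hA
  obtain ⟨b, hbB, hby⟩ := hB
  set Q := {w | ∃ E, E ⊆ J \ {y} ∧ IsCompact E ∧ IsPreconnected E ∧ a ∈ E ∧ w ∈ E} with hQ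
  have hloc : ∀ w ∈ J \ {y}, ∃ U, IsOpen U ∧ w ∈ U ∧
      ∀ z ∈ U ∩ (J \ {y}), (w ∈ Q ↔ z ∈ Q) := by
    rintro w ⟨hw, hwy⟩
    have hd : 0 < dist w y := dist_pos.2 hwy
    obtain ⟨N, hN, hNc, hNp, hwN, U, hU, hwU, hUN⟩ := exists_connected_nhd hγ hJ hw (half_pos hd)
    have hNy : N ⊆ J \ {y} := fun c hc => ⟨(hN hc).1, fun h' => by
      have h1 := (hN hc).2
      rw [mem_singleton_iff.1 h', mem_closedBall, dist_comm] at h1
      linarith⟩
    refine ⟨U, hU, hwU, fun z hz => ?_⟩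
    have hzN : z ∈ N := hUN ⟨hz.1, hz.2.1⟩
    constructor <;> rintro ⟨E, hE, hEc, hEp, haE, hE'⟩
    · exact ⟨E ∪ N, union_subset hE hNy, hEc.union hNc, hEp.union w hE' hwN hNp, Or.inl haE,
        Or.inr hzN⟩
    · exact ⟨E ∪ N, union_subset hE hNy, hEc.union hNc, hEp.union z hE' hzN hNp, Or.inl haE,
        Or.inr hwN⟩
  choose! U hU hwU hUiff using hloc
  have hbQ : b ∈ Q := by
    by_contra hbn
    obtain ⟨c, hc, hc1, hc2⟩ := hp (⋃ w ∈ (J \ {y}) ∩ Q, U w) (⋃ w ∈ (J \ {y}) \ Q, U w)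
      (isOpen_biUnion fun w hw => hU w hw.1) (isOpen_biUnion fun w hw => hU w hw.1)
      (fun w hw => by
        by_cases hwQ : w ∈ Q
        · exact Or.inl (mem_iUnion₂.2 ⟨w, ⟨hw, hwQ⟩, hwU w hw⟩)
        · exact Or.inr (mem_iUnion₂.2 ⟨w, ⟨hw, hwQ⟩, hwU w hw⟩))
      ⟨a, ⟨hAJ haA, hay⟩, mem_iUnion₂.2 ⟨a, ⟨⟨hAJ haA, hay⟩, {a},
        singleton_subset_iff.2 ⟨hAJ haA, hay⟩, isCompact_singleton, isPreconnected_singleton,
        rfl, rfl⟩, hwU a ⟨hAJ haA, hay⟩⟩⟩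
      ⟨b, ⟨hBJ hbB, hby⟩, mem_iUnion₂.2 ⟨b, ⟨⟨hBJ hbB, hby⟩, hbn⟩, hwU b ⟨hBJ hbB, hby⟩⟩⟩
    obtain ⟨w₁, hw₁, hc1⟩ := mem_iUnion₂.1 hc1
    obtain ⟨w₂, hw₂, hc2⟩ := mem_iUnion₂.1 hc2
    exact hw₂.2 ((hUiff w₂ hw₂.1 c ⟨hc2, hc⟩).2 ((hUiff w₁ hw₁.1 c ⟨hc1, hc⟩).1 hw₁.2))
  obtain ⟨E, hE, hEc, hEp, haE, hbE⟩ := hbQ
  have hyA : y ∈ A ∧ y ∈ B := by rw [← mem_inter_iff, hAB]; exact rfl
  have h1 : IsPreconnected ((E ∪ A) ∩ B) := huni _ _ (union_subset (hE.trans sdiff_subset) hAJ) hBJ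
    (hEc.union hAc) hBc (hEp.union a haE haA hAp) hBp
  obtain ⟨c, -, hc1, hc2⟩ := isPreconnected_closed_iff.1 h1 (E ∩ B) {y}
    (hEc.inter hBc).isClosed isClosed_singleton (fun c ⟨hc, hcB⟩ => by
      rcases hc with hc | hc
      · exact Or.inl ⟨hc, hcB⟩
      · exact Or.inr (hAB.subset ⟨hc, hcB⟩))
    ⟨b, ⟨Or.inl hbE, hbB⟩, hbE, hbB⟩ ⟨y, ⟨Or.inr hyA.1, hyA.2⟩, rfl⟩
  exact (hE hc1.1).2 hc2

/-- The part of `J` cut off at `y` away from `p`. -/
structure IsBranch (J : Set ℂ) (p y : ℂ) (S : Set ℂ) : Prop where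
  ne : y ≠ p
  compact : IsCompact S
  conn : IsPreconnected S
  rest : ∃ T, IsClosed T ∧ IsPreconnected T ∧ S ∪ T = J ∧ S ∩ T = {y} ∧ p ∈ T
  nontrivial : (S \ {y}).Nonempty

/-- A cut point has a branch. -/
lemma exists_branch {J : Set ℂ} (hJc : IsCompact J) (hJp : IsPreconnected J) {p y : ℂ}
    (hp : p ∈ J) (hy : y ∈ J) (hne : y ≠ p) (hcut : ¬ IsPreconnected (J \ {y})) :
    ∃ S, IsBranch J p y S := by
  rw [isPreconnected_closed_iff] at hcut
  push Not at hcut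
  obtain ⟨c, d, hc, hd, hsub, hcn, hdn, hemp⟩ := hcut
  have hemp' : ∀ w, w ∈ J → w ≠ y → w ∈ c → w ∈ d → False := fun w hw hwy hwc hwd =>
    eq_empty_iff_forall_notMem.1 hemp w ⟨⟨hw, hwy⟩, hwc, hwd⟩
  have main : ∀ c d : Set ℂ, IsClosed c → IsClosed d → J \ {y} ⊆ c ∪ d →
      ((J \ {y}) ∩ c).Nonempty →
      (∀ w, w ∈ J → w ≠ y → w ∈ c → w ∈ d → False) → p ∈ d → ∃ S, IsBranch J p y S := by
    intro c d hc hd hsub hcn hemp hpd
    have hCc : IsClosed ((J ∩ c) ∪ {y}) := (hJc.isClosed.inter hc).union isClosed_singleton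
    have hDc : IsClosed ((J ∩ d) ∪ {y}) := (hJc.isClosed.inter hd).union isClosed_singleton
    have hcov : J ⊆ ((J ∩ c) ∪ {y}) ∪ ((J ∩ d) ∪ {y}) := fun w hw => by
      by_cases hwy : w = y
      · exact Or.inl (Or.inr hwy)
      · rcases hsub ⟨hw, hwy⟩ with h | h
        · exact Or.inl (Or.inl ⟨hw, h⟩)
        · exact Or.inr (Or.inl ⟨hw, h⟩)
    have hint : ((J ∩ c) ∪ {y}) ∩ ((J ∩ d) ∪ {y}) ⊆ {y} := by
      rintro w ⟨h1 | h1, h2⟩
      · rcases h2 with h2 | h2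
        · by_contra hwy
          exact hemp w h1.1 hwy h1.2 h2.2
        · exact h2
      · exact h1
    have hsubJ : ∀ {e : Set ℂ}, (J ∩ e) ∪ {y} ⊆ J := fun {e} =>
      union_subset inter_subset_left (singleton_subset_iff.2 hy)
    refine ⟨_, hne, hJc.of_isClosed_subset hCc hsubJ, ?_, ⟨_, hDc, ?_,
      Subset.antisymm (union_subset hsubJ hsubJ) hcov,
      Subset.antisymm hint (singleton_subset_iff.2 ⟨Or.inr rfl, Or.inr rfl⟩),
      Or.inl ⟨hp, hpd⟩⟩, ?_⟩
    · rw [← inter_eq_right.2 (hsubJ (e := c))]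
      exact isPreconnected_inter_of_split hJp hCc hDc hcov ⟨hy, Or.inr rfl⟩
        (fun w hw => hint ⟨hw.1.2, hw.2⟩)
    · rw [← inter_eq_right.2 (hsubJ (e := d))]
      exact isPreconnected_inter_of_split hJp hDc hCc (by rwa [union_comm]) ⟨hy, Or.inr rfl⟩
        (fun w hw => hint ⟨hw.2, hw.1.2⟩)
    · obtain ⟨w, ⟨hw, hwy⟩, hwc⟩ := hcn
      exact ⟨w, Or.inl ⟨hw, hwc⟩, hwy⟩
  rcases hsub ⟨hp, Ne.symm hne⟩ with hpc | hpd
  · exact main d c hd hc (by rwa [union_comm]) hdn (fun w h1 h2 h3 h4 => hemp' w h1 h2 h4 h3) hpc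
  · exact main c d hc hd hsub hcn hemp' hpd

/-- Not every point can be a cut point. -/
lemma false_of_cut {J : Set ℂ} (hJc : IsCompact J) (hJp : IsPreconnected J) {p x : ℂ} (hp : p ∈ J)
    (hx : x ∈ J) (hxp : x ≠ p) (hfin : Measure.hausdorffMeasure 1 J ≠ ⊤)
    (hcut : ∀ y ∈ J, y ≠ p → ¬ IsPreconnected (J \ {y})) : False := by
  set μ : Measure ℂ := Measure.hausdorffMeasure 1
  have hsubJ : ∀ {y S}, IsBranch J p y S → S ⊆ J := fun {y S} h => by
    obtain ⟨T, -, -, h1, -, -⟩ := h.rest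
    exact h1 ▸ subset_union_left
  have hpS : ∀ {y S}, IsBranch J p y S → p ∉ S := fun {y S} h hpS => by
    obtain ⟨T, -, -, -, h2, h3⟩ := h.rest
    exact h.ne (h2.subset ⟨hpS, h3⟩).symm
  have hyS : ∀ {y S}, IsBranch J p y S → y ∈ S := fun {y S} h => by
    obtain ⟨T, -, -, -, h2, -⟩ := h.rest
    exact (h2.symm.subset rfl).1
  have sub : ∀ {y S}, IsBranch J p y S → ∀ w ∈ S \ {y},
      ∃ S', IsBranch J p w S' ∧ S' ⊆ S \ {y} := by
    rintro y S h w ⟨hwS, hwy⟩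
    have hwp : w ≠ p := fun h' => hpS h (h' ▸ hwS)
    obtain ⟨S', hS'⟩ := exists_branch hJc hJp hp (hsubJ h hwS) hwp (hcut w (hsubJ h hwS) hwp)
    obtain ⟨T, hTc, hTp, h1, h2, h3⟩ := h.rest
    obtain ⟨T', hTc', -, h1', h2', h3'⟩ := hS'.rest
    refine ⟨S', hS', fun z hz => ?_⟩
    have hzT : z ∉ T := fun hzT => by
      obtain ⟨c, hcT, hc1, hc2⟩ := isPreconnected_closed_iff.1 hTp S' T' hS'.compact.isClosed hTc'
        (by rw [h1', ← h1]; exact subset_union_right) ⟨z, hzT, hz⟩ ⟨p, h3, h3'⟩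
      have hcw : c = w := h2'.subset ⟨hc1, hc2⟩
      exact hwy (h2.subset ⟨hwS, hcw ▸ hcT⟩)
    rcases h1.symm.subset (hsubJ hS' hz) with h' | h'
    · exact ⟨h', fun he => hzT ((mem_singleton_iff.1 he) ▸ (h2.symm.subset rfl).2)⟩
    · exact absurd h' hzT
  obtain ⟨S₀, hS₀⟩ := exists_branch hJc hJp hp hx hxp (hcut x hx hxp)
  have next_ : ∀ (n : ℕ) (q : {q : ℂ × Set ℂ // IsBranch J p q.1 q.2}),
      ∃ q' : {q : ℂ × Set ℂ // IsBranch J p q.1 q.2}, q'.1.2 ⊆ q.1.2 \ {q.1.1} ∧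
        ∀ w S, IsBranch J p w S → S ⊆ q.1.2 \ {q.1.1} →
          (μ q'.1.2).toReal ≤ (μ S).toReal + 1 / (n + 1) := by
    intro n q
    set V := {t : ℝ | ∃ w S, IsBranch J p w S ∧ S ⊆ q.1.2 \ {q.1.1} ∧ (μ S).toReal = t} with hV
    obtain ⟨w, hw⟩ := q.2.nontrivial
    obtain ⟨S, hS, hSsub⟩ := sub q.2 w hw
    have hVn : V.Nonempty := ⟨_, w, S, hS, hSsub, rfl⟩
    have hVb : BddBelow V := ⟨0, fun t ⟨_, S, _, _, h⟩ => h ▸ ENNReal.toReal_nonneg⟩
    obtain ⟨t, ⟨w', S', hS', hS'sub, rfl⟩, ht⟩ :=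
      Real.lt_sInf_add_pos hVn (ε := 1 / ((n : ℝ) + 1)) (by positivity)
    refine ⟨⟨(w', S'), hS'⟩, hS'sub, fun w S hS hsub => ?_⟩
    linarith [csInf_le hVb ⟨w, S, hS, hsub, rfl⟩]
  choose next hnext hnext' using next_
  set seq : ℕ → {q : ℂ × Set ℂ // IsBranch J p q.1 q.2} :=
    fun n => Nat.rec ⟨(x, S₀), hS₀⟩ (fun m q => next m q) n
  obtain ⟨z, hz⟩ := IsCompact.nonempty_iInter_of_sequence_nonempty_isCompact_isClosed
    (fun n => (seq n).1.2) (fun n => (hnext n (seq n)).trans sdiff_subset)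
    (fun n => ⟨_, hyS (seq n).2⟩) (seq 0).2.compact (fun n => (seq n).2.compact.isClosed)
  simp only [mem_iInter] at hz
  have hzne : ∀ n, z ∈ (seq n).1.2 \ {(seq n).1.1} := fun n => hnext n (seq n) (hz (n + 1))
  obtain ⟨T0, -, -, hT01, -, -⟩ := (seq 0).2.rest
  have hzp : z ≠ p := fun h => hpS (seq 0).2 (h ▸ hz 0)
  obtain ⟨S', hS'⟩ := exists_branch hJc hJp hp (hsubJ (seq 0).2 (hz 0)) hzp
    (hcut z (hsubJ (seq 0).2 (hz 0)) hzp)
  have hS'n : ∀ n, S' ⊆ (seq n).1.2 \ {(seq n).1.1} := by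
    intro n c hc
    obtain ⟨T, hTc, hTp, h1, h2, h3⟩ := (seq n).2.rest
    obtain ⟨T', hTc', -, h1', h2', h3'⟩ := hS'.rest
    have hcT : c ∉ T := fun hcT => by
      obtain ⟨e, heT, he1, he2⟩ := isPreconnected_closed_iff.1 hTp S' T' hS'.compact.isClosed hTc'
        (by rw [h1', ← h1]; exact subset_union_right) ⟨c, hcT, hc⟩ ⟨p, h3, h3'⟩
      have hez : e = z := h2'.subset ⟨he1, he2⟩
      exact (hzne n).2 (h2.subset ⟨(hzne n).1, hez ▸ heT⟩)
    rcases h1.symm.subset (hsubJ hS' hc) with h' | h'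
    · exact ⟨h', fun he => hcT ((mem_singleton_iff.1 he) ▸ (h2.symm.subset rfl).2)⟩
    · exact absurd h' hcT
  obtain ⟨w, hw⟩ := hS'.nontrivial
  obtain ⟨S'', hS'', hsub''⟩ := sub hS' w hw
  have hd : 0 < dist w z := dist_pos.2 hw.2
  obtain ⟨e, he, heball⟩ := Metric.isOpen_iff.1 hS''.compact.isClosed.isOpen_compl z
    (fun h => (hsub'' h).2 rfl)
  set r := min e (dist w z)
  have hr : 0 < r := lt_min he hd
  have hlen := length_ge_crossing hS'.conn (s := r) (hyS hS') hw.1 (min_le_right _ _)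
  rw [dist_self, sub_zero] at hlen
  have hfin' : ∀ {S : Set ℂ}, S ⊆ J → μ S ≠ ⊤ := fun hS => ne_top_of_le_ne_top hfin (measure_mono hS)
  have hdis : μ S'' + μ (S' ∩ ball z r) ≤ μ S' := by
    rw [← measure_union' (disjoint_left.2 fun c hc hc' =>
      heball (ball_subset_ball (min_le_left _ _) hc'.2) hc) hS''.compact.measurableSet]
    exact measure_mono (union_subset (hsub''.trans sdiff_subset) inter_subset_left)
  have h1 := ENNReal.toReal_mono (hfin' (hsubJ hS')) hdis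
  rw [ENNReal.toReal_add (hfin' (hsubJ hS''))
    (hfin' (inter_subset_left.trans (hsubJ hS')))] at h1
  have h2 := ENNReal.toReal_mono (hfin' (inter_subset_left.trans (hsubJ hS'))) hlen
  rw [ENNReal.toReal_ofReal hr.le] at h2
  obtain ⟨n, hn⟩ := exists_nat_one_div_lt hr
  have h3 := hnext' n (seq n) w S'' hS''
    ((hsub''.trans sdiff_subset).trans (hS'n n))
  have h4 : (μ S').toReal ≤ (μ (next n (seq n)).1.2).toReal :=
    ENNReal.toReal_mono (hfin' (hsubJ (seq (n + 1)).2))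
      (measure_mono ((hS'n (n + 1)).trans sdiff_subset))
  linarith

end Vale.Agent.P128.Bonnet
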