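import Vale.Agent.P128.Bonnet.Tip.Scales
import Vale.Agent.P128.Classify.Polar

/-!
# A part hanging at one point: there are no holes

A bounded component `D` of the complement would be on exactly one side of a flat point. Adding a
constant to `u` on `D` makes the values on the two sides agree, and then the small arcs are cheaper.
-/

namespace Vale.Agent.P128.Bonnet

open MeasureTheory Filter Metric Set Islands Connected
open scoped Topology ENNReal NNReal ContDiff Real

/-- Adding a constant on a bounded component of the complement. -/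
lemma reg_shift {u : ℂ → ℝ} {K : Set ℂ} (h : Reg u K) {d : ℂ}
    (hb : Bornology.IsBounded (connectedComponentIn Kᶜ d)) (c : ℝ) :
    Reg (fun y => u y + (connectedComponentIn Kᶜ d).indicator (fun _ => c) y) K ∧
      ∀ y, y ∉ K →
        grad (fun y => u y + (connectedComponentIn Kᶜ d).indicator (fun _ => c) y) y = grad u y := by
  set D := connectedComponentIn Kᶜ d with hD
  set I := D.indicator fun _ => c with hI
  have loc : ∀ y ∉ K, I =ᶠ[𝓝 y] fun _ => I y := by
    intro y hy
    filter_upwards [(h.isClosed.isOpen_compl.connectedComponentIn).mem_nhds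
      (mem_connectedComponentIn (F := Kᶜ) hy)] with z hz
    have e := connectedComponentIn_eq hz
    have hiff : z ∈ D ↔ y ∈ D := by
      constructor
      · intro hzD
        rw [hD, connectedComponentIn_eq hzD, ← e]
        exact mem_connectedComponentIn hy
      · intro hyD
        rw [hD, connectedComponentIn_eq hyD, e]
        exact mem_connectedComponentIn (connectedComponentIn_subset _ _ hz)
    by_cases hzD : z ∈ D <;> simp [hI, hzD, ← hiff]
  have gradI : ∀ (f : ℂ → ℝ), ∀ y ∉ K, grad (fun z => f z + I z) y = grad f y := fun f y hy => by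
    rw [grad_congr (g := fun z => f z + I y) ((loc y hy).mono fun z hz => by simp [hz])]
    simp [grad, fderiv_add_const]
  have hnull := measure_eq_zero_iff_ae_notMem.1 h.null
  have gI : grad (fun z => u z + I z) =ᵐ[volume] grad u := hnull.mono fun y hy => gradI u y hy
  refine ⟨⟨h.isClosed, fun y hy => ?_, h.null, h.length_ne_top,
    fun r => (h.memLp r).ae_eq (gI.filter_mono (ae_mono Measure.restrict_le_self)).symm, ?_⟩,
    fun y hy => gradI u y hy⟩
  · refine ((((h.smooth y hy).contDiffAt (h.isClosed.isOpen_compl.mem_nhds hy)).add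
      (contDiffAt_const (c := I y))).congr_of_eventuallyEq (f₁ := fun z => u z + I z)
      ((loc y hy).mono fun z hz => ?_)).contDiffWithinAt
    simp [hz]
  intro L δ ρ hL hL0 hsm hz hLK hsep hLfin hδ
  obtain ⟨M, hM⟩ := hb.subset_closedBall (0 : ℂ)
  set ρ' := max ρ M with hρ'
  have hsub : closedBall (0 : ℂ) ρ ⊆ closedBall 0 ρ' := closedBall_subset_closedBall (le_max_left _ _)
  have hball : ball (0 : ℂ) (ρ + 1) ⊆ ball 0 (ρ' + 1) :=
    ball_subset_ball (by linarith [le_max_left ρ M])
  have gδ : grad (fun z => δ z + I z) =ᵐ[volume] grad δ := hnull.mono fun y hy => gradI δ y hy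
  have hout : L ∩ (ball (0 : ℂ) (ρ' + 1) \ ball 0 (ρ + 1)) =
      K ∩ (ball (0 : ℂ) (ρ' + 1) \ ball 0 (ρ + 1)) := by
    ext z
    have hmem : z ∉ ball (0 : ℂ) (ρ + 1) → z ∉ closedBall (0 : ℂ) ρ := fun hz h' =>
      hz (closedBall_subset_ball (by linarith) h')
    have e := Set.ext_iff.1 hLK z
    simp only [Set.mem_sdiff, mem_inter_iff] at e ⊢
    tauto
  have split : ∀ S : Set ℂ, Measure.hausdorffMeasure 1 (S ∩ ball 0 (ρ' + 1)) =
      Measure.hausdorffMeasure 1 (S ∩ ball 0 (ρ + 1)) +
        Measure.hausdorffMeasure 1 (S ∩ (ball 0 (ρ' + 1) \ ball 0 (ρ + 1))) := fun S => by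
    rw [← measure_inter_add_sdiff (S ∩ ball 0 (ρ' + 1)) (measurableSet_ball (x := 0) (ε := ρ + 1)),
      inter_assoc, inter_eq_right.2 hball, inter_sdiff_assoc]
  have hann : Measure.hausdorffMeasure 1 (K ∩ (ball 0 (ρ' + 1) \ ball 0 (ρ + 1))) ≠ ⊤ :=
    ne_top_of_le_ne_top (h.length_ne_top (ρ' + 1))
      (measure_mono (inter_subset_inter_right _ sdiff_subset))
  have key := h.vary L (fun z => δ z + I z) ρ' hL hL0 (hsm.congr fun z _ => by ring)
    (fun z hz' => by
      rw [hz z fun h' => hz' (hsub h'), hI,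
        indicator_of_notMem fun h' => hz' (closedBall_subset_closedBall (le_max_right _ _) (hM h'))]
      ring)
    (by
      rw [← sdiff_union_inter_cancel_aux hsub L, ← sdiff_union_inter_cancel_aux hsub K, hLK])
    (fun a b ha hb hab => hsep a b (fun h' => ha (union_subset_union_left _ hball h'))
      (fun h' => hb (union_subset_union_left _ hball h')) hab)
    (by rw [split, hout]; exact ENNReal.add_ne_top.2 ⟨hLfin, hann⟩)
    (hδ.ae_eq gδ.symm)
  rw [split L, split K, hout, ENNReal.toReal_add hLfin hann,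
    ENNReal.toReal_add (h.length_ne_top _) hann] at key
  rw [integral_congr_ae (gδ.mono fun y hy => by rw [hy])] at key
  have e2 : ∫ y, dot (grad u y) (grad (fun z => δ z + I z) y) =
      ∫ y, dot (grad (fun z => u z + I z) y) (grad δ y) :=
    integral_congr_ae ((gδ.and gI).mono fun y hy => by simp only [hy.1, hy.2])
  rw [e2] at key
  linarith
where
  sdiff_union_inter_cancel_aux {A B : Set ℂ} (hAB : A ⊆ B) (S : Set ℂ) :
      (S \ A) \ B = S \ B := by
    ext z; constructor
    · rintro ⟨⟨h1, -⟩, h2⟩; exact ⟨h1, h2⟩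
    · rintro ⟨h1, h2⟩; exact ⟨⟨h1, fun h => h2 (hAB h)⟩, h2⟩

lemma dot_sub_left (a b w : ℂ) : dot (a - b) w = dot a w - dot b w := by
  simp [dot]; ring

lemma isPreconnected_side (q ν : ℂ) (r h : ℝ) :
    IsPreconnected {a | a ∈ ball q r ∧ h < dot (a - q) ν} := by
  have e : {a | a ∈ ball q r ∧ h < dot (a - q) ν} = ball q r ∩ {a | h + dot q ν < dot a ν} := by
    ext a; simp [dot_sub_left, lt_sub_iff_add_lt]
  rw [e]
  exact ((convex_ball q r).inter (convex_halfSpace_gt
    ⟨fun a b => by simp [dot]; ring, fun c a => by simp [dot]; ring⟩ _)).isPreconnected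

/-- The area of a slab in a disk. -/
lemma volume_slab_le (q ν : ℂ) (hν : ‖ν‖ = 1) (r h : ℝ) :
    volume {a | a ∈ ball q r ∧ |dot (a - q) (Complex.I * ν)| ≤ h} ≤
      ENNReal.ofReal (2 * r) * ENNReal.ofReal (2 * h) := by
  set v : Circle := ⟨ν, mem_sphere_zero_iff_norm.2 hν⟩
  have hf : MeasurePreserving (fun a : ℂ => (rotation v).symm (a - q)) volume volume :=
    ((rotation v).symm.measurePreserving).comp (measurePreserving_sub_right volume q)
  set B : Set ℂ := Complex.measurableEquivRealProd ⁻¹' (Ioo (-r) r ×ˢ Icc (-h) h) with hB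
  have hBm : MeasurableSet B := Complex.measurableEquivRealProd.measurable
    (measurableSet_Ioo.prod measurableSet_Icc)
  refine le_trans (measure_mono (t := (fun a : ℂ => (rotation v).symm (a - q)) ⁻¹' B) ?_) ?_
  · rintro a ⟨ha, hd⟩
    rw [mem_ball, dist_eq_norm] at ha
    have h1 : (rotation v).symm (a - q) = starRingEnd ℂ ν * (a - q) := by
      rw [rotation_symm, rotation_apply, Circle.coe_inv_eq_conj]
    rw [mem_preimage, hB, mem_preimage, h1]
    simp only [Complex.measurableEquivRealProd_apply, mem_prod, mem_Ioo, mem_Icc]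
    refine ⟨abs_lt.1 ((Complex.abs_re_le_norm _).trans_lt (by simpa [hν] using ha)), abs_le.1 ?_⟩
    refine le_of_eq_of_le ?_ hd
    congr 1
    simp [dot]; ring
  · rw [hf.measure_preimage hBm.nullMeasurableSet, hB,
      Complex.volume_preserving_equiv_real_prod.measure_preimage
        (measurableSet_Ioo.prod measurableSet_Icc).nullMeasurableSet, Measure.volume_eq_prod,
      Measure.prod_prod, Real.volume_Ioo, Real.volume_Icc]
    ring_nf
    rfl

/-- The area of a set inside a moving disk is continuous. -/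
lemma continuous_volume_inter_ball (D : Set ℂ) {r : ℝ} (hr : 0 < r) :
    Continuous fun w => (volume (D ∩ ball w r)).toReal := by
  have hfin : ∀ (S : Set ℂ) w s, volume (S ∩ ball w s) ≠ ⊤ := fun S w s =>
    ne_top_of_le_ne_top measure_ball_lt_top.ne (measure_mono inter_subset_right)
  have hvol : ∀ (w : ℂ) s, 0 ≤ s → (volume (ball w s)).toReal = π * s ^ 2 := fun w s hs => by
    rw [Complex.volume_ball, ENNReal.toReal_mul, ENNReal.toReal_pow, ENNReal.toReal_ofReal hs]
    simp; ring
  have key : ∀ a b : ℂ, (volume (D ∩ ball a r)).toReal - (volume (D ∩ ball b r)).toReal ≤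
      π * ((r + dist a b) ^ 2 - r ^ 2) := by
    intro a b
    have hsub : ball b r ⊆ ball b (r + dist a b) := ball_subset_ball (by linarith [dist_nonneg (x := a) (y := b)])
    have h1 : D ∩ ball a r ⊆ (D ∩ ball b r) ∪ (ball b (r + dist a b) \ ball b r) := by
      rintro z ⟨hz, hza⟩
      by_cases h : z ∈ ball b r
      · exact Or.inl ⟨hz, h⟩
      · refine Or.inr ⟨?_, h⟩
        rw [mem_ball] at hza ⊢
        linarith [dist_triangle z a b]
    have hfin2 : volume (ball b (r + dist a b) \ ball b r) ≠ ⊤ :=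
      ne_top_of_le_ne_top measure_ball_lt_top.ne (measure_mono sdiff_subset)
    have h2 := ENNReal.toReal_mono (ENNReal.add_ne_top.2 ⟨hfin D b r, hfin2⟩)
      ((measure_mono h1).trans (measure_union_le _ _))
    rw [ENNReal.toReal_add (hfin D b r) hfin2,
      measure_sdiff hsub measurableSet_ball.nullMeasurableSet measure_ball_lt_top.ne,
      ENNReal.toReal_sub_of_le (measure_mono hsub) measure_ball_lt_top.ne,
      hvol b _ hr.le, hvol b _ (by positivity)] at h2
    linarith
  rw [Metric.continuous_iff]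
  intro b ε hε
  refine ⟨min r (ε / (4 * π * r)), lt_min hr (by positivity), fun a ha => ?_⟩
  rw [Real.dist_eq, abs_lt]
  have h1 := key a b
  have h2 := key b a
  rw [dist_comm b a] at h2
  have hd : dist a b * (4 * π * r) < ε := by
    rw [← lt_div_iff₀ (by positivity)]
    exact ha.trans_le (min_le_right _ _)
  have hdr : dist a b < r := ha.trans_le (min_le_left _ _)
  have h0 : (0 : ℝ) ≤ π * dist a b := by positivity
  constructor <;> nlinarith

lemma eq_circleMap_arg {q a : ℂ} {s : ℝ} (ha : ‖a - q‖ = s) {ν : ℂ} (hν : ‖ν‖ = 1) :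
    circleMap q s (Complex.arg ((a - q) / ν) + Complex.arg ν) = a := by
  have h0 : ν ≠ 0 := norm_ne_zero_iff.1 (by rw [hν]; norm_num)
  have e1 := Complex.norm_mul_exp_arg_mul_I ((a - q) / ν)
  have e2 := Complex.norm_mul_exp_arg_mul_I ν
  rw [norm_div, hν, div_one, ha] at e1
  rw [hν, Complex.ofReal_one, one_mul] at e2
  rw [circleMap, Complex.ofReal_add, add_mul, Complex.exp_add, ← mul_assoc, e1, e2,
    div_mul_cancel₀ _ h0, add_sub_cancel]

lemma dot_circleMap {q ν : ℂ} (hν : ‖ν‖ = 1) (s t : ℝ) :
    dot (circleMap q s (t + Complex.arg ν) - q) (Complex.I * ν) = s * Real.sin t := by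
  have e2 := Complex.norm_mul_exp_arg_mul_I ν
  rw [hν, Complex.ofReal_one, one_mul] at e2
  have e3 : ν.re * ν.re + ν.im * ν.im = 1 := by
    rw [← Complex.normSq_apply, Complex.normSq_eq_norm_sq, hν, one_pow]
  rw [circleMap_sub_center]
  simp only [circleMap, zero_add, Complex.ofReal_add, add_mul, Complex.exp_add, e2]
  simp [dot, Complex.exp_ofReal_mul_I_re, Complex.exp_ofReal_mul_I_im]
  linear_combination (s * Real.sin t) * e3

/-- Oscillation along an arc missing the singular set. -/
lemma hole_osc_le {u : ℂ → ℝ} {K : Set ℂ} (hu : Reg u K) {q : ℂ} {s a b lam : ℝ} (hs : 0 < s)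
    (hlam : 0 < lam) (hab : a ≤ b) (hlen : b ≤ a + 2 * π)
    (hint : IntervalIntegrable (fun θ => ‖grad u (circleMap q s θ)‖ ^ 2) volume (-π) π)
    (hfree : ∀ θ ∈ Icc a b, circleMap q s θ ∉ K) :
    |u (circleMap q s b) - u (circleMap q s a)| ≤
      lam / 2 * Classify.circ (fun y => ‖grad u y‖ ^ 2) q s + π * s / lam := by
  set g : ℝ → ℂ := fun θ => grad u (circleMap q s θ) with hg
  set d : ℝ → ℂ := fun θ => circleMap 0 s θ * Complex.I with hd
  have hder : ∀ θ ∈ uIcc a b,
      HasDerivAt (fun t => u (circleMap q s t)) (dot (g θ) (d θ)) θ := by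
    intro θ hθ
    rw [uIcc_of_le hab] at hθ
    have hy : circleMap q s θ ∉ K := hfree θ hθ
    have hdiff := ((hu.smooth _ hy).contDiffAt (hu.isClosed.isOpen_compl.mem_nhds hy)).differentiableAt
      (by simp)
    have := hdiff.hasFDerivAt.comp_hasDerivAt θ (hasDerivAt_circleMap q s θ)
    rwa [show fderiv ℝ u (circleMap q s θ) (d θ) = dot (g θ) (d θ) by
      conv_lhs => rw [show d θ = (d θ).re • (1 : ℂ) + (d θ).im • Complex.I by simp]
      rw [map_add, map_smul, map_smul]
      simp only [dot, smul_eq_mul, hg, grad_re, grad_im]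
      ring] at this
  have hgc : ContinuousOn g (uIcc a b) := by
    rw [uIcc_of_le hab]
    exact ((contDiffOn_grad hu.isClosed.isOpen_compl hu.smooth).continuousOn).comp
      (continuous_circleMap q s).continuousOn hfree
  have hdc : Continuous d := (continuous_circleMap 0 s).mul continuous_const
  have hfc : ContinuousOn (fun θ => dot (g θ) (d θ)) (uIcc a b) :=
    ((Complex.continuous_re.comp_continuousOn hgc).mul
      (Complex.continuous_re.comp hdc).continuousOn).add
      ((Complex.continuous_im.comp_continuousOn hgc).mul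
      (Complex.continuous_im.comp hdc).continuousOn)
  rw [← intervalIntegral.integral_eq_sub_of_hasDerivAt hder hfc.intervalIntegrable]
  refine (intervalIntegral.abs_integral_le_integral_abs hab).trans ?_
  have hper : Function.Periodic (fun θ => ‖g θ‖ ^ 2) (2 * π) := fun θ => by
    simp only [hg, periodic_circleMap q s θ]
  have hint2 : ∀ a₁ a₂ : ℝ, IntervalIntegrable (fun θ => ‖g θ‖ ^ 2) volume a₁ a₂ :=
    fun a₁ a₂ => hper.intervalIntegrable (by positivity)
      (t := -π) (by rw [show -π + 2 * π = π by ring]; exact hint) a₁ a₂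
  have hi := hint2 a b
  have bound : ∫ θ in a..b, |dot (g θ) (d θ)| ≤
      ∫ θ in a..b, (s * lam / 2 * ‖g θ‖ ^ 2 + s / (2 * lam)) := by
    refine intervalIntegral.integral_mono_on hab hfc.abs.intervalIntegrable
      ((hi.const_mul _).add intervalIntegrable_const) fun θ _ => ?_
    refine (show |dot (g θ) (d θ)| ≤ ‖g θ‖ * ‖d θ‖ by
      rw [dot_eq_inner]; exact abs_real_inner_le_norm _ _).trans ?_
    rw [hd]
    simp only [norm_mul, Complex.norm_I, mul_one, norm_circleMap_zero, abs_of_pos hs]
    rw [show s * lam / 2 * ‖g θ‖ ^ 2 + s / (2 * lam) =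
      ‖g θ‖ * s + s / (2 * lam) * (lam * ‖g θ‖ - 1) ^ 2 by field_simp; ring]
    nlinarith [show 0 ≤ s / (2 * lam) * (lam * ‖g θ‖ - 1) ^ 2 by positivity]
  refine bound.trans ?_
  rw [intervalIntegral.integral_add (hi.const_mul _) intervalIntegrable_const,
    intervalIntegral.integral_const_mul, intervalIntegral.integral_const, smul_eq_mul]
  have hmono : ∫ θ in a..b, ‖g θ‖ ^ 2 ≤ ∫ θ in a..(a + 2 * π), ‖g θ‖ ^ 2 :=
    intervalIntegral.integral_mono_interval le_rfl hab hlen
      (Eventually.of_forall fun θ => by positivity) (hint2 _ _)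
  have hshift : ∫ θ in a..(a + 2 * π), ‖g θ‖ ^ 2 = ∫ θ in -π..π, ‖g θ‖ ^ 2 := by
    rw [hper.intervalIntegral_add_eq a (-π)]
    congr 1; ring
  rw [hshift] at hmono
  have h1 := mul_le_mul_of_nonneg_left hmono (show 0 ≤ s * lam / 2 by positivity)
  have h2 : (b - a) * (s / (2 * lam)) ≤ π * s / lam := by
    rw [show π * s / lam = 2 * π * (s / (2 * lam)) by field_simp]
    exact mul_le_mul_of_nonneg_right (by linarith) (by positivity)
  have e : lam / 2 * Classify.circ (fun y => ‖grad u y‖ ^ 2) q s =
      s * lam / 2 * ∫ θ in -π..π, ‖g θ‖ ^ 2 := by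
    simp only [Classify.circ, hg]; ring
  rw [e]
  linarith

end Vale.Agent.P128.Bonnet
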