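import Vale.Agent.P128.Bonnet.Interface
import Vale.Agent.P128.Connected.Cover

/-!
# A part hanging at one point: scales

Where the energy is uniformly small every point is, at all small scales, either flat or triple;
the triple points are finite and away from them the flat scales are uniform.
-/

namespace Vale.Agent.P128.Bonnet

open MeasureTheory Filter Metric Set Islands Connected
open scoped Topology ENNReal NNReal

/-- What the energy assumption gives on `J = K ∩ closedBall x R`. -/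
structure Scales (u : ℂ → ℝ) (K J : Set ℂ) (δ τ σ₀ : ℝ) (T : Finset ℂ) : Prop where
  pos : 0 < σ₀
  mem : ∀ y ∈ T, y ∈ J
  energy : ∀ y ∈ J, ∀ s ∈ Ioc 0 σ₀, En u y s ≤ τ * s
  lower : ∀ y ∈ J, ∀ s ∈ Ioc 0 σ₀, 19 / 10 * s ≤ Len K y s
  kind : ∀ y ∈ J, ∃ k : ℕ, (k = 2 ∨ k = 3) ∧ ∃ s > (0 : ℝ), ∀ σ ∈ Ioc 0 s,
    Len K y σ ≤ 31 / 10 * σ ∧ ∃ Ω, IsBalanced Ω k ∧ IsStarNear K y σ δ Ω
  flat : ∀ η > (0 : ℝ), ∃ σ₁ > (0 : ℝ), ∀ y ∈ J, (∀ t ∈ T, η ≤ dist y t) → ∀ σ ∈ Ioc 0 σ₁,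
    ∃ Ω, IsBalanced Ω 2 ∧ IsStarNear K y σ δ Ω

lemma len_mono {u : ℂ → ℝ} {K : Set ℂ} (hu : Reg u K) {y z : ℂ} {r s : ℝ}
    (h : r + dist y z ≤ s) : Len K y r ≤ Len K z s := by
  refine ENNReal.toReal_mono (ne_top_of_le_ne_top (hu.length_ne_top (s + ‖z‖)) ?_)
    (measure_mono (inter_subset_inter_right _ (ball_subset_ball' h)))
  exact measure_mono (inter_subset_inter_right _ (ball_subset_ball' (by simp)))

theorem exists_scales (hG : GrowthGoal) (hS : StarGoal) {δ τ : ℝ} (hδ : 0 < δ) (hτ : 0 < τ)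
    (hδ' : δ ≤ 1 / 100) {u : ℂ → ℝ} {K J : Set ℂ} (h : Conn u K) (hJ : IsCompact J)
    (hJK : J ⊆ K) (hsmall : ∀ ε > (0 : ℝ), ∃ r₀ > (0 : ℝ), ∀ y ∈ J, ∀ s ∈ Ioc 0 r₀,
      En u y s ≤ ε * s) :
    ∃ σ₀ T, Scales u K J δ τ σ₀ T := by
  classical
  obtain ⟨εs, hεs, Λs, hΛs, hStar⟩ := hS δ hδ
  set δg : ℝ := min (1 / 10) εs with hδg
  have hδg1 : δg ≤ 1 / 10 := min_le_left _ _
  have hδg2 : δg ≤ εs := min_le_right _ _
  obtain ⟨εg, hεg, Λg, hΛg, hGrow⟩ := hG δg (lt_min (by norm_num) hεs)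
  set ε := min τ (min εs εg) with hε
  obtain ⟨r₀, hr₀, hen⟩ := hsmall ε (lt_min hτ (lt_min hεs hεg))
  have hΛg0 : 0 < Λg := by linarith
  have hΛs0 : 0 < Λs := by linarith
  set σ₀ := r₀ / Λg with hσ₀
  have hσ0 : 0 < σ₀ := by positivity
  have hmul : Λg * σ₀ = r₀ := by rw [hσ₀]; field_simp
  have hσr : σ₀ ≤ r₀ := by rw [← hmul]; exact le_mul_of_one_le_left hσ0.le hΛg.le
  have henσ : ∀ y ∈ J, ∀ s ∈ Ioc 0 σ₀, En u y s ≤ ε * s := fun y hy s hs =>
    hen y hy s ⟨hs.1, hs.2.trans hσr⟩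
  have grow := fun y (hy : y ∈ J) => hGrow u K y σ₀ h (hJK hy) hσ0 fun s hs =>
    (hen y hy s (hmul ▸ hs)).trans (mul_le_mul_of_nonneg_right
      ((min_le_right _ _).trans (min_le_right _ _)) hs.1.le)
  set Flat : ℂ → ℝ → Prop := fun y s => ∀ t ∈ Ioc 0 s, Len K y t < (2 + δg) * t with hFlat
  set Tri : ℂ → Prop := fun y => ∀ t ∈ Ioc 0 σ₀, (3 - δg) * t ≤ Len K y t with hTri
  have dich : ∀ y ∈ J, Tri y ∨ ∃ s ∈ Ioc 0 σ₀, Flat y s := by
    intro y hy
    by_contra hc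
    push Not at hc
    obtain ⟨hT, hF⟩ := hc
    refine hT fun t ht => ?_
    have hst : t / Λg ∈ Ioc 0 σ₀ :=
      ⟨div_pos ht.1 hΛg0, (div_le_self ht.1.le hΛg.le).trans ht.2⟩
    have hn := hF _ hst
    simp only [Flat] at hn
    push Not at hn
    obtain ⟨s, hs, hlen⟩ := hn
    refine (grow y hy).2 s ⟨hs.1, hs.2.trans hst.2⟩ hlen t ⟨?_, ht.2⟩
    have := hs.2
    rw [le_div_iff₀ hΛg0] at this
    linarith
  have flat_near : ∀ y s, s ∈ Ioc 0 σ₀ → Flat y s → ∀ a ∈ J, dist a y ≤ s / 20 →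
      ¬ Tri a ∧ Flat a (s / (2 * Λg)) := by
    intro y s hs hF a ha hay
    have key : Len K a (s / 2) < (3 - δg) * (s / 2) := by
      have h1 : Len K a (s / 2) ≤ Len K y (11 / 20 * s) := len_mono h.reg (by linarith)
      have h2 := hF (11 / 20 * s) ⟨by linarith [hs.1], by linarith [hs.1]⟩
      nlinarith [hs.1]
    refine ⟨fun hT => ?_, fun t ht => ?_⟩
    · have := hT (s / 2) ⟨by linarith [hs.1], by linarith [hs.1, hs.2]⟩
      linarith
    · by_contra hc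
      push Not at hc
      have h2 := ht.2
      rw [le_div_iff₀ (by positivity)] at h2
      have := (grow a ha).2 t ⟨ht.1, by nlinarith [ht.1, hs.2]⟩ hc (s / 2)
        ⟨by linarith, by linarith [hs.1, hs.2]⟩
      linarith
  have lens : ∀ y ∈ J, ∀ t ∈ Ioc 0 σ₀, (2 - δg) * t ≤ Len K y t ∧ Len K y t ≤ (3 + δg) * t :=
    fun y hy => (grow y hy).1
  have star2 : ∀ y ∈ J, ∀ s, s ∈ Ioc 0 σ₀ → Flat y s → ∀ σ ∈ Ioc 0 (s / Λs),
      ∃ Ω, IsBalanced Ω 2 ∧ IsStarNear K y σ δ Ω := by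
    intro y hy s hs hF σ hσ
    have h2 := hσ.2
    rw [le_div_iff₀ hΛs0] at h2
    refine hStar u K y σ 2 h (hJK hy) hσ.1 (Or.inl rfl) fun t ht => ?_
    have ht0 : 0 < t := lt_of_lt_of_le (div_pos hσ.1 hΛs0) ht.1
    have hts : t ≤ s := by linarith [ht.2]
    have hl := lens y hy t ⟨ht0, hts.trans hs.2⟩
    have hf := hF t ⟨ht0, hts⟩
    refine ⟨(henσ y hy t ⟨ht0, hts.trans hs.2⟩).trans (mul_le_mul_of_nonneg_right
      ((min_le_right _ _).trans (min_le_left _ _)) ht0.le), ?_⟩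
    rw [abs_le]
    push_cast
    constructor <;> nlinarith [hl.1]
  have star3 : ∀ y ∈ J, Tri y → ∀ σ ∈ Ioc 0 (σ₀ / Λs),
      ∃ Ω, IsBalanced Ω 3 ∧ IsStarNear K y σ δ Ω := by
    intro y hy hT σ hσ
    have h2 := hσ.2
    rw [le_div_iff₀ hΛs0] at h2
    refine hStar u K y σ 3 h (hJK hy) hσ.1 (Or.inr rfl) fun t ht => ?_
    have ht0 : 0 < t := lt_of_lt_of_le (div_pos hσ.1 hΛs0) ht.1
    have hts : t ≤ σ₀ := by linarith [ht.2]
    have hl := lens y hy t ⟨ht0, hts⟩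
    have hf := hT t ⟨ht0, hts⟩
    refine ⟨(henσ y hy t ⟨ht0, hts⟩).trans (mul_le_mul_of_nonneg_right
      ((min_le_right _ _).trans (min_le_left _ _)) ht0.le), ?_⟩
    rw [abs_le]
    push_cast
    constructor <;> nlinarith [hl.2]
  have isolated : ∀ y ∈ J, ∃ ρ > (0 : ℝ), ∀ a ∈ J, a ∈ ball y ρ → Tri a → a = y := by
    intro y hy
    rcases dich y hy with hT | ⟨s, hs, hF⟩
    · refine ⟨σ₀ / (2 * Λs), by positivity, fun a ha hd hTa => ?_⟩
      by_contra hne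
      set d := dist a y with hd'
      have hd0 : 0 < d := dist_pos.2 hne
      have hdl : d < σ₀ / (2 * Λs) := hd
      have e : σ₀ / Λs = 2 * (σ₀ / (2 * Λs)) := by field_simp
      obtain ⟨Ω, hΩ, hnear, -, harm⟩ := star3 y hy hT (2 * d) ⟨by linarith, by linarith⟩
      obtain ⟨z, ⟨ω, hω, t, ht0, rfl⟩, hz⟩ := hnear a (hJK ha) (by rw [← dist_eq_norm]; linarith)
      have ht : |t - d| ≤ δ * (2 * d) := by
        rw [abs_le]
        have e1 : ‖t • ω‖ = t := by rw [norm_smul, hΩ.2.1 ω hω, mul_one, Real.norm_of_nonneg ht0]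
        have e2 : d = ‖a - y‖ := dist_eq_norm a y
        have e3 := abs_norm_sub_norm_le (a - y) (t • ω)
        rw [e1, ← e2, show a - y - t • ω = a - (y + t • ω) by abel, abs_le] at e3
        constructor <;> linarith [e3.1, e3.2]
      rw [abs_le] at ht
      have hb := mul_le_mul_of_nonneg_right hδ' hd0.le
      have hdσ : d / 2 ≤ σ₀ := by
        have : σ₀ / (2 * Λs) ≤ σ₀ := div_le_self hσ0.le (by linarith)
        linarith
      have h1 : Len K a (d / 2) ≤ Len K (y + t • ω) (d / 2 + δ * (2 * d)) :=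
        len_mono h.reg (by rw [dist_eq_norm]; linarith)
      have h2 := harm ω hω t (d / 2 + δ * (2 * d)) (by positivity) (by linarith) (by linarith)
      have h3 := hTa (d / 2) ⟨by linarith, hdσ⟩
      have h4 := mul_le_mul_of_nonneg_right hδg1 hd0.le
      nlinarith
    · exact ⟨s / 20, by linarith [hs.1],
        fun a ha hd hTa => ((flat_near y s hs hF a ha hd.le).1 hTa).elim⟩
  have hfin : {y | y ∈ J ∧ Tri y}.Finite := by
    choose! ρ hρ hρ' using isolated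
    obtain ⟨t, htJ, hcov⟩ := hJ.elim_nhds_subcover (fun y => ball y (ρ y))
      fun y hy => ball_mem_nhds y (hρ y hy)
    refine t.finite_toSet.subset fun a ha => ?_
    obtain ⟨y, hy, hay⟩ := mem_iUnion₂.1 (hcov ha.1)
    rw [hρ' y (htJ y hy) a ha.1 hay ha.2]
    exact hy
  refine ⟨σ₀, hfin.toFinset, hσ0, fun y hy => (hfin.mem_toFinset.1 hy).1,
    fun y hy s hs => (henσ y hy s hs).trans (mul_le_mul_of_nonneg_right (min_le_left _ _) hs.1.le),
    fun y hy s hs => le_trans (by nlinarith [hs.1]) (lens y hy s hs).1, fun y hy => ?_,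
    fun η hη => ?_⟩
  · have up : ∀ σ ∈ Ioc 0 σ₀, Len K y σ ≤ 31 / 10 * σ := fun σ hσ =>
      (lens y hy σ hσ).2.trans (by nlinarith [hσ.1])
    rcases dich y hy with hT | ⟨s, hs, hF⟩
    · refine ⟨3, Or.inr rfl, σ₀ / Λs, by positivity, fun σ hσ => ⟨up σ ⟨hσ.1, ?_⟩,
        star3 y hy hT σ hσ⟩⟩
      exact hσ.2.trans (div_le_self hσ0.le hΛs.le)
    · refine ⟨2, Or.inl rfl, s / Λs, by have := hs.1; positivity, fun σ hσ => ⟨up σ ⟨hσ.1, ?_⟩,
        star2 y hy s hs hF σ hσ⟩⟩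
      exact hσ.2.trans ((div_le_self hs.1.le hΛs.le).trans hs.2)
  · set Jη := J ∩ ⋂ t ∈ hfin.toFinset, {y | η ≤ dist y t} with hJη
    have hJηc : IsCompact Jη := hJ.inter_right
      (isClosed_biInter fun t _ => isClosed_le continuous_const (continuous_id.dist continuous_const))
    have hflat : ∀ y ∈ Jη, ∃ s, s ∈ Ioc 0 σ₀ ∧ Flat y s := by
      intro y hy
      rcases dich y hy.1 with hT | hF
      · have := mem_iInter₂.1 hy.2 y (hfin.mem_toFinset.2 ⟨hy.1, hT⟩)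
        simp at this
        linarith
      · exact hF
    choose! s hs hF using hflat
    obtain ⟨t, htJ, hcov⟩ := hJηc.elim_nhds_subcover (fun y => ball y (s y / 20))
      fun y hy => ball_mem_nhds y (by linarith [(hs y hy).1])
    set F := insert σ₀ (t.image fun y => s y / (2 * Λg)) with hFdef
    have hFn : F.Nonempty := Finset.insert_nonempty _ _
    have hmin : 0 < F.min' hFn := by
      refine (Finset.lt_min'_iff _ hFn).2 fun z hz => ?_
      rcases Finset.mem_insert.1 hz with rfl | hz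
      · exact hσ0
      · obtain ⟨y, hy, rfl⟩ := Finset.mem_image.1 hz
        have := (hs y (htJ y hy)).1
        positivity
    refine ⟨F.min' hFn / Λs, by positivity, fun a ha haT σ hσ => ?_⟩
    obtain ⟨y, hy, hay⟩ := mem_iUnion₂.1 (hcov ⟨ha, mem_iInter₂.2 haT⟩)
    refine star2 a ha _ ⟨hmin, Finset.min'_le _ _ (Finset.mem_insert_self _ _)⟩ ?_ σ hσ
    intro t' ht'
    exact (flat_near y (s y) (hs y (htJ y hy)) (hF y (htJ y hy)) a ha hay.le).2 t'
      ⟨ht'.1, ht'.2.trans (Finset.min'_le _ _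
        (Finset.mem_insert_of_mem (Finset.mem_image_of_mem _ hy)))⟩

end Vale.Agent.P128.Bonnet
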